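import Vale.Agent.P037.Disproof.Core
import Vale.Agent.P037.Count

namespace Vale.Agent.P037.Disproof

open Finset
open scoped Classical

/-- The number of labels. -/
def lab (L : ℕ) : ℕ := 4 * (L + 2) + 1

/-- The number of cells of a leaf. -/
def wid (L : ℕ) : ℕ := 2 * (L + 4)

/-- The number of segments in front of the main region. -/
def front (L : ℕ) : ℕ := 10 + 3 * lab L

/-- The side of the matrix. -/
def size (L : ℕ) : ℕ := 2 ^ L * (front L + wid L)

/-- The index of a cell of a leaf. -/
def jof (L w : ℕ) : ℕ := if w < L + 4 then w else wid L - 1 - w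

/-- The half of a cell of a leaf. -/
def half (L w : ℕ) : Bool := decide (L + 4 ≤ w)

/-- The point at a position. -/
def dec (L x : ℕ) : Pt :=
  if x / 2 ^ L < 10 then .mark ⟨x / 2 ^ L % 4, Nat.mod_lt _ (by norm_num)⟩
  else if x / 2 ^ L < front L then
    .anchor ⟨(x / 2 ^ L - 10) / lab L % 3, Nat.mod_lt _ (by norm_num)⟩
      ((x / 2 ^ L - 10) % lab L)
  else .main ((x - front L * 2 ^ L) / wid L) (jof L ((x - front L * 2 ^ L) % wid L))
    (half L ((x - front L * 2 ^ L) % wid L))

/-- The matrix with few copies that is far from freeness. -/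
def mat (L : ℕ) (x y : Fin (size L)) : Bool := val L (dec L x.val) (dec L y.val)

/-- The pattern. -/
def pat (i j : Fin 16) : Bool := hv i.val j.val

theorem wid_pos (L : ℕ) : 0 < wid L := by unfold wid; omega

theorem lab_pos (L : ℕ) : 0 < lab L := by unfold lab; omega

theorem jof_le {L w : ℕ} (hw : w < wid L) : jof L w ≤ L + 3 := by
  unfold jof wid at *
  split_ifs <;> omega

theorem jof_left {L a : ℕ} (ha : a < L + 4) : jof L a = a ∧ half L a = false := by
  simp [jof, half, ha]

theorem jof_right {L a : ℕ} (ha : a < L + 4) :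
    jof L (wid L - 1 - a) = a ∧ half L (wid L - 1 - a) = true := by
  unfold jof half wid
  constructor
  · split_ifs <;> omega
  · simp only [decide_eq_true_iff]
    omega

theorem dec_seg {L g t : ℕ} (ht : t < 2 ^ L) :
    (g * 2 ^ L + t) / 2 ^ L = g := by
  rw [mul_comm, Nat.mul_add_div (Nat.two_pow_pos L), Nat.div_eq_of_lt ht, add_zero]

theorem dec_mark {L g t : ℕ} (hg : g < 10) (ht : t < 2 ^ L) :
    dec L (g * 2 ^ L + t) = .mark ⟨g % 4, Nat.mod_lt _ (by norm_num)⟩ := by
  unfold dec
  simp only [dec_seg ht, if_pos hg]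

theorem dec_anchor {L l t : ℕ} (ρ : Fin 3) (hl : l < lab L) (ht : t < 2 ^ L) :
    dec L ((10 + ρ.val * lab L + l) * 2 ^ L + t) = .anchor ρ l := by
  have hρ := ρ.isLt
  have h1 : ρ.val * lab L + lab L ≤ 3 * lab L := by
    rw [← Nat.succ_mul]
    exact Nat.mul_le_mul_right _ hρ
  have h2 : 10 + ρ.val * lab L + l < front L := by unfold front; omega
  have h3 : 10 + ρ.val * lab L + l - 10 = lab L * ρ.val + l := by
    rw [mul_comm (lab L)]; omega
  unfold dec
  simp only [dec_seg ht]
  rw [if_neg (by omega), if_pos h2]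
  congr 1
  · apply Fin.ext
    simp only
    rw [h3, Nat.mul_add_div (lab_pos L), Nat.div_eq_of_lt hl, add_zero, Nat.mod_eq_of_lt hρ]
  · rw [h3, Nat.mul_add_mod, Nat.mod_eq_of_lt hl]

theorem dec_main {L s w : ℕ} (hw : w < wid L) :
    dec L (front L * 2 ^ L + s * wid L + w) = .main s (jof L w) (half L w) := by
  have h : front L ≤ (front L * 2 ^ L + s * wid L + w) / 2 ^ L := by
    rw [Nat.le_div_iff_mul_le (Nat.two_pow_pos L), add_assoc]
    exact Nat.le_add_right _ _
  have h10 : 10 ≤ front L := by unfold front; omega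
  have h2 : front L * 2 ^ L + s * wid L + w - front L * 2 ^ L = wid L * s + w := by
    rw [mul_comm (wid L)]; omega
  have h3 : (wid L * s + w) / wid L = s := by
    rw [Nat.mul_add_div (wid_pos L), Nat.div_eq_of_lt hw, add_zero]
  have h4 : (wid L * s + w) % wid L = w := by
    rw [Nat.mul_add_mod, Nat.mod_eq_of_lt hw]
  unfold dec
  rw [if_neg (by omega), if_neg (by omega), h2, h3, h4]

theorem bdd_dec (L x : ℕ) : Bdd L (dec L x) := by
  unfold dec
  split_ifs <;> simp [Bdd, jof_le (Nat.mod_lt _ (wid_pos L))]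

theorem dec_ordered {L : ℕ} {r : Fin 16 → Fin (size L)} (hr : StrictMono r) :
    Ordered L (fun i => dec L (r i).val) where
  bdd i := bdd_dec L _
  kinds i j hij := by
    have h := Nat.div_le_div_right (c := 2 ^ L) (Fin.le_def.1 (hr.monotone hij))
    simp only [dec]
    split_ifs <;> simp [kind] <;> omega
  roles i j hij a l b l' ha hb := by
    have h := Nat.div_le_div_right (c := 2 ^ L) (Fin.le_def.1 (hr.monotone hij))
    simp only [dec] at ha hb
    split_ifs at ha hb with h1 h2 h3 h4
    simp only [Pt.anchor.injEq] at ha hb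
    rw [← ha.1, ← hb.1, Fin.le_def]
    simp only
    have hlt : ∀ g, g < front L → (g - 10) / lab L < 3 := fun g hg => by
      rw [Nat.div_lt_iff_lt_mul (lab_pos L)]
      unfold front at hg
      have := lab_pos L
      omega
    rw [Nat.mod_eq_of_lt (hlt _ (by assumption)), Nat.mod_eq_of_lt (hlt _ (by assumption))]
    exact Nat.div_le_div_right (Nat.sub_le_sub_right h 10)
  leaves i j hij s a g t b k ha hb := by
    have h := Fin.le_def.1 (hr.monotone hij)
    simp only [dec] at ha hb
    split_ifs at ha hb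
    simp only [Pt.main.injEq] at ha hb
    rw [← ha.1, ← hb.1]
    exact Nat.div_le_div_right (Nat.sub_le_sub_right h _)

/-- A main point determines its position. -/
theorem of_dec_main {L : ℕ} {x : Fin (size L)} {s j : ℕ} {b : Bool}
    (h : dec L x.val = .main s j b) :
    s < 2 ^ L ∧ x.val = front L * 2 ^ L + s * wid L + (x.val - front L * 2 ^ L) % wid L := by
  simp only [dec] at h
  split_ifs at h with h1 h2
  simp only [Pt.main.injEq] at h
  have hge : front L * 2 ^ L ≤ x.val := by
    have h3 : front L ≤ x.val / 2 ^ L := by omega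
    exact (Nat.le_div_iff_mul_le (Nat.two_pow_pos L)).1 h3
  have hx := x.isLt
  have hlt : x.val - front L * 2 ^ L < 2 ^ L * wid L := by
    have : size L = front L * 2 ^ L + 2 ^ L * wid L := by unfold size; ring
    omega
  refine ⟨h.1 ▸ (Nat.div_lt_iff_lt_mul (wid_pos L)).2 hlt, ?_⟩
  have := Nat.div_add_mod (x.val - front L * 2 ^ L) (wid L)
  rw [h.1, mul_comm] at this
  omega

/-- The matrix has few copies of the pattern. -/
theorem few_copies (L : ℕ) : copyCount pat (mat L) * 2 ^ L ≤ size L ^ 32 := by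
  rw [← card_copySet]
  let F : (Fin 16 → Fin (size L)) × (Fin 16 → Fin (size L)) →
      (Fin 15 → Fin (size L)) × (Fin 15 → Fin (size L)) × (ℕ × ℕ × ℕ) := fun p =>
    (fun i => p.1 ((13 : Fin 16).succAbove i), fun i => p.2 ((13 : Fin 16).succAbove i),
      ((p.1 13).val - front L * 2 ^ L) / wid L, ((p.1 13).val - front L * 2 ^ L) % wid L,
      ((p.2 13).val - front L * 2 ^ L) % wid L)
  have key : ∀ p ∈ copySet pat (mat L), ∃ s, s < 2 ^ L ∧
      ((p.1 13).val - front L * 2 ^ L) / wid L = s ∧
      (p.1 13).val = front L * 2 ^ L + s * wid L + ((p.1 13).val - front L * 2 ^ L) % wid L ∧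
      (p.2 13).val = front L * 2 ^ L + s * wid L + ((p.2 13).val - front L * 2 ^ L) % wid L := by
    intro p hp
    simp only [copySet, mem_filter, mem_univ, true_and] at hp
    obtain ⟨s, a, b, a', b', h1, h2⟩ :=
      classify (dec_ordered hp.1) (dec_ordered hp.2.1) hp.2.2
    obtain ⟨hs, hx⟩ := of_dec_main h1
    obtain ⟨-, hy⟩ := of_dec_main h2
    refine ⟨s, hs, ?_, hx, hy⟩
    rw [show (p.1 13).val - front L * 2 ^ L
      = wid L * s + ((p.1 13).val - front L * 2 ^ L) % wid L by
        rw [mul_comm (wid L)]; omega, Nat.mul_add_div (wid_pos L),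
      Nat.div_eq_of_lt (Nat.mod_lt _ (wid_pos L)), add_zero]
  have hsub : (copySet pat (mat L)).card ≤
      ((univ : Finset (Fin 15 → Fin (size L))) ×ˢ (univ : Finset (Fin 15 → Fin (size L))) ×ˢ
        (range (2 ^ L) ×ˢ range (wid L) ×ˢ range (wid L))).card := by
    refine card_le_card_of_injOn F (fun p hp => ?_) (fun p hp q hq e => ?_)
    · obtain ⟨s, hs, he, -, -⟩ := key p hp
      simp [F, he, hs, Nat.mod_lt _ (wid_pos L)]
    · obtain ⟨s, -, he, hx, hy⟩ := key p hp
      obtain ⟨s', -, he', hx', hy'⟩ := key q hq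
      simp only [F, Prod.mk.injEq] at e
      obtain ⟨e1, e2, e3, e4, e5⟩ := e
      have hs' : s = s' := by omega
      subst hs'
      refine Prod.ext (funext fun i => ?_) (funext fun i => ?_)
      · by_cases hi : i = 13
        · subst hi; exact Fin.ext (by omega)
        · obtain ⟨k, rfl⟩ := Fin.exists_succAbove_eq hi
          exact congrFun e1 k
      · by_cases hi : i = 13
        · subst hi; exact Fin.ext (by omega)
        · obtain ⟨k, rfl⟩ := Fin.exists_succAbove_eq hi
          exact congrFun e2 k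
  simp only [card_product, card_univ, Fintype.card_fun, Fintype.card_fin, card_range] at hsub
  have hpw : 2 ^ L * wid L ≤ size L := Nat.mul_le_mul_left _ (Nat.le_add_left _ _)
  calc (copySet pat (mat L)).card * 2 ^ L
      ≤ size L ^ 15 * (size L ^ 15 * (2 ^ L * (wid L * wid L))) * 2 ^ L :=
        Nat.mul_le_mul_right _ hsub
    _ = size L ^ 30 * ((2 ^ L * wid L) * (2 ^ L * wid L)) := by ring
    _ ≤ size L ^ 30 * (size L * size L) :=
        Nat.mul_le_mul_left _ (Nat.mul_le_mul hpw hpw)
    _ = size L ^ 32 := by ring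

end Vale.Agent.P037.Disproof
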