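import Vale.Agent.P037.Disproof.Judge

namespace Vale.Agent.P037.Disproof

variable {M : ℕ}

/-- The leaf with a block number and an offset. -/
def lf (x : Fin 5 × Fin (2 ^ M)) : ℕ := x.1.val * 2 ^ M + x.2.val

theorem lf_lt (x : Fin 5 × Fin (2 ^ M)) : lf x < 2 ^ (M + 3) := by
  have h1 := x.1.isLt
  have h2 := x.2.isLt
  have h3 : (x.1.val + 1) * 2 ^ M ≤ 8 * 2 ^ M := Nat.mul_le_mul_right _ (by omega)
  have h4 : 2 ^ (M + 3) = 8 * 2 ^ M := by ring
  rw [Nat.succ_mul] at h3
  unfold lf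
  omega

theorem off_lt (t : Fin (2 ^ M)) : t.val < 2 ^ (M + 3) :=
  t.isLt.trans_le (Nat.pow_le_pow_right (by norm_num) (by omega))

theorem size_eq (L : ℕ) : size L = front L * 2 ^ L + 2 ^ L * wid L := by unfold size; ring

theorem front_pos (L : ℕ) : 0 < front L := by unfold front; omega

/-- A position in a front segment. -/
def segPos (t : Fin (2 ^ M)) (u : ℕ) : Fin (size (M + 3)) :=
  ⟨u % front (M + 3) * 2 ^ (M + 3) + t.val, by
    have h : (u % front (M + 3) + 1) * 2 ^ (M + 3) ≤ front (M + 3) * 2 ^ (M + 3) :=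
      Nat.mul_le_mul_right _ (Nat.mod_lt _ (front_pos _))
    rw [Nat.succ_mul] at h
    have := off_lt t
    have := size_eq (M + 3)
    omega⟩

/-- A position in a leaf. -/
def cellPos (x : Fin 5 × Fin (2 ^ M)) (u : ℕ) : Fin (size (M + 3)) :=
  ⟨front (M + 3) * 2 ^ (M + 3) + lf x * wid (M + 3) + u % wid (M + 3), by
    have h : (lf x + 1) * wid (M + 3) ≤ 2 ^ (M + 3) * wid (M + 3) :=
      Nat.mul_le_mul_right _ (lf_lt x)
    rw [Nat.succ_mul] at h
    have := Nat.mod_lt u (wid_pos (M + 3))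
    have := size_eq (M + 3)
    omega⟩

theorem dec_cellPos (x : Fin 5 × Fin (2 ^ M)) {u : ℕ} (hu : u < wid (M + 3)) :
    dec (M + 3) (cellPos x u).val
      = .main (lf x) (jof (M + 3) u) (half (M + 3) u) := by
  simp only [cellPos, Nat.mod_eq_of_lt hu]
  exact dec_main hu

/-- Agreement of a matrix with the constructed one outside one square. -/
structure Good (B : Fin (size (M + 3)) → Fin (size (M + 3)) → Bool)
    (t t' : Fin (2 ^ M)) (RM CM : Fin 3 → Fin 5 × Fin (2 ^ M)) : Prop where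
  ss : ∀ u v, B (segPos t u) (segPos t' v) = mat (M + 3) (segPos t u) (segPos t' v)
  sm : ∀ u b v, B (segPos t u) (cellPos (CM b) v) = mat (M + 3) (segPos t u) (cellPos (CM b) v)
  ms : ∀ a u v, B (cellPos (RM a) u) (segPos t' v) = mat (M + 3) (cellPos (RM a) u) (segPos t' v)
  mm : ∀ a b, ¬(a = 1 ∧ b = 1) → ∀ u v,
    B (cellPos (RM a) u) (cellPos (CM b) v) = mat (M + 3) (cellPos (RM a) u) (cellPos (CM b) v)

/-- The sixteen positions of a candidate copy. -/
def tup (t : Fin (2 ^ M)) (l : ℕ) (z : Fin 3 → (Fin 5 × Fin (2 ^ M)) × ℕ) (i : Fin 16) :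
    Fin (size (M + 3)) :=
  if i.val < 10 then segPos t i.val
  else if h : i.val < 13 then segPos t (10 + (i.val - 10) * lab (M + 3) + l)
  else cellPos (z ⟨i.val - 13, by omega⟩).1 (z ⟨i.val - 13, by omega⟩).2

theorem tup_strictMono (t : Fin (2 ^ M)) {l : ℕ} (hl : l < lab (M + 3))
    (z : Fin 3 → (Fin 5 × Fin (2 ^ M)) × ℕ) (hz : ∀ a, (z a).2 < wid (M + 3))
    (hord : ∀ a b, a < b → lf (z a).1 * wid (M + 3) + (z a).2
      < lf (z b).1 * wid (M + 3) + (z b).2) :
    StrictMono (tup t l z) := by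
  intro i j hij
  rw [Fin.lt_def] at hij
  rw [Fin.lt_def]
  have hf : front (M + 3) = 10 + 3 * lab (M + 3) := rfl
  have hseg : ∀ g g' : ℕ, g < g' → g' < front (M + 3) →
      (segPos t g).val < (segPos t g').val := by
    intro g g' h1 h2
    simp only [segPos, Nat.mod_eq_of_lt h2, Nat.mod_eq_of_lt (h1.trans h2)]
    have := Nat.mul_lt_mul_of_pos_right h1 (Nat.two_pow_pos (M + 3))
    omega
  have hbig : ∀ (g : ℕ) (x : Fin 5 × Fin (2 ^ M)) (u : ℕ), g < front (M + 3) → (segPos t g).val < (cellPos x u).val := by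
    intro g x u h1
    simp only [segPos, cellPos, Nat.mod_eq_of_lt h1]
    have h2 : (g + 1) * 2 ^ (M + 3) ≤ front (M + 3) * 2 ^ (M + 3) := Nat.mul_le_mul_right _ h1
    rw [Nat.succ_mul] at h2
    have := off_lt t
    omega
  have hanc : ∀ k, 10 ≤ k → k < 13 → 10 + (k - 10) * lab (M + 3) + l < front (M + 3) := by
    intro k h1 h2
    have : (k - 10 + 1) * lab (M + 3) ≤ 3 * lab (M + 3) := Nat.mul_le_mul_right _ (by omega)
    rw [Nat.succ_mul] at this
    omega
  have hlp := lab_pos (M + 3)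
  unfold tup
  split_ifs with h1 h2 h3 h4 h5 h6 h7
  all_goals first
    | exact hbig _ _ _ (by omega)
    | exact hbig _ _ _ (hanc _ (by omega) (by omega))
    | exact hseg _ _ hij (by omega)
    | exact hseg _ _ (by omega) (hanc _ (by omega) (by omega))
    | (exfalso; omega)
    | skip
  · refine hseg _ _ ?_ (hanc _ (by omega) (by omega))
    have := Nat.mul_lt_mul_of_pos_right (show i.val - 10 < j.val - 10 by omega) hlp
    omega
  · simp only [cellPos, Nat.mod_eq_of_lt (hz _)]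
    have := hord ⟨i.val - 13, by omega⟩ ⟨j.val - 13, by omega⟩ (by simp; omega)
    omega

theorem tup_cases (t : Fin (2 ^ M)) {l : ℕ} (hl : l < lab (M + 3))
    (z : Fin 3 → (Fin 5 × Fin (2 ^ M)) × ℕ) (hz : ∀ a, (z a).2 < wid (M + 3)) (i : Fin 16) :
    (i.val < 10 ∧ tup t l z i = segPos t i.val ∧
      dec (M + 3) (tup t l z i).val = .mark ⟨i.val % 4, Nat.mod_lt _ (by norm_num)⟩) ∨
    (∃ ρ : Fin 3, i.val = 10 + ρ.val ∧ (∃ u, tup t l z i = segPos t u) ∧
      dec (M + 3) (tup t l z i).val = .anchor ρ l) ∨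
    (∃ a : Fin 3, i.val = 13 + a.val ∧ tup t l z i = cellPos (z a).1 (z a).2 ∧
      dec (M + 3) (tup t l z i).val
        = .main (lf (z a).1) (jof (M + 3) (z a).2) (half (M + 3) (z a).2)) := by
  have hf : front (M + 3) = 10 + 3 * lab (M + 3) := rfl
  by_cases h1 : i.val < 10
  · left
    simp only [tup, if_pos h1, segPos, Nat.mod_eq_of_lt (show i.val < front (M + 3) by omega)]
    exact ⟨h1, trivial, dec_mark h1 (off_lt t)⟩
  by_cases h2 : i.val < 13
  · right; left
    refine ⟨⟨i.val - 10, by omega⟩, by simp; omega, ⟨10 + (i.val - 10) * lab (M + 3) + l, ?_⟩, ?_⟩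
    · simp only [tup, if_neg h1, dif_pos h2]
    · have : (i.val - 10 + 1) * lab (M + 3) ≤ 3 * lab (M + 3) :=
        Nat.mul_le_mul_right _ (by omega)
      rw [Nat.succ_mul] at this
      simp only [tup, if_neg h1, dif_pos h2, segPos,
        Nat.mod_eq_of_lt (show 10 + (i.val - 10) * lab (M + 3) + l < front (M + 3) by omega)]
      exact dec_anchor ⟨i.val - 10, by omega⟩ hl (off_lt t)
  · right; right
    refine ⟨⟨i.val - 13, by omega⟩, by simp; omega, ?_, ?_⟩
    · simp only [tup, if_neg h1, dif_neg h2]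
    · simp only [tup, if_neg h1, dif_neg h2]
      exact dec_cellPos _ (hz ⟨i.val - 13, by omega⟩)

/-- A free matrix cannot show the last nine entries of the pattern. -/
theorem assemble {B : Fin (size (M + 3)) → Fin (size (M + 3)) → Bool}
    (hB : copyCount pat B = 0) {t t' : Fin (2 ^ M)} {RM CM : Fin 3 → Fin 5 × Fin (2 ^ M)}
    (hg : Good B t t' RM CM) {l : ℕ} (hl : l < lab (M + 3))
    (z z' : Fin 3 → (Fin 5 × Fin (2 ^ M)) × ℕ) (hzR : ∀ a, ∃ k, (z a).1 = RM k)
    (hzC : ∀ a, ∃ k, (z' a).1 = CM k)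
    (hu : ∀ a, (z a).2 < wid (M + 3)) (hu' : ∀ a, (z' a).2 < wid (M + 3))
    (hord : ∀ a b, a < b → lf (z a).1 * wid (M + 3) + (z a).2
      < lf (z b).1 * wid (M + 3) + (z b).2)
    (hord' : ∀ a b, a < b → lf (z' a).1 * wid (M + 3) + (z' a).2
      < lf (z' b).1 * wid (M + 3) + (z' b).2)
    (hc : ∀ a, Cast (M + 3) 0 l a (lf (z a).1) (z a).2)
    (hc' : ∀ a, Cast (M + 3) 1 l a (lf (z' a).1) (z' a).2)
    (hin : ∀ a b, B (cellPos (z a).1 (z a).2) (cellPos (z' b).1 (z' b).2)
      = decide (¬(a = 1 ∧ b = 1))) : False := by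
  have hmem : (tup t l z, tup t' l z') ∈ copySet pat B := by
    simp only [copySet, Finset.mem_filter, Finset.mem_univ, true_and]
    refine ⟨tup_strictMono t hl z hu hord, tup_strictMono t' hl z' hu' hord', fun i j => ?_⟩
    unfold pat hv
    rcases tup_cases t hl z hu i with ⟨hi, ei, di⟩ | ⟨ρ, hi, ⟨u, ei⟩, di⟩ | ⟨a, hi, ei, di⟩ <;>
      rcases tup_cases t' hl z' hu' j with
        ⟨hj, ej, dj⟩ | ⟨σ, hj, ⟨v, ej⟩, dj⟩ | ⟨b, hj, ej, dj⟩
    · rw [ei, ej, hg.ss, ← ei, ← ej, mat, di, dj, if_pos hi, if_pos hj]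
      simp [val, Fin.ext_iff]
    · rw [ei, ej, hg.ss, ← ei, ← ej, mat, di, dj, if_pos hi, if_neg (by omega)]
      simp [val]
      omega
    · obtain ⟨k, hk⟩ := hzC b
      rw [ei, ej, hk, hg.sm, ← hk, ← ei, ← ej, mat, di, dj, if_pos hi, if_neg (by omega)]
      simp [val]
      omega
    · rw [ei, ej, hg.ss, ← ei, ← ej, mat, di, dj, if_neg (by omega), if_pos hj]
      simp [val]
      omega
    · have := ρ.isLt
      have := σ.isLt
      rw [ei, ej, hg.ss, ← ei, ← ej, mat, di, dj, if_neg (by omega), if_neg (by omega),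
        if_pos (by omega), if_pos (by omega)]
      simp [val]
    · have := ρ.isLt
      obtain ⟨k, hk⟩ := hzC b
      rw [ei, ej, hk, hg.sm, ← hk, ← ei, ← ej, mat, di, dj, if_neg (by omega),
        if_neg (by omega), if_pos (by omega), if_neg (by omega)]
      simp only [val]
      rw [hc' b ρ, decide_eq_decide, Fin.ext_iff]
      omega
    · obtain ⟨k, hk⟩ := hzR a
      rw [ei, ej, hk, hg.ms, ← hk, ← ei, ← ej, mat, di, dj, if_neg (by omega), if_pos hj]
      simp [val]
      omega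
    · have := σ.isLt
      obtain ⟨k, hk⟩ := hzR a
      rw [ei, ej, hk, hg.ms, ← hk, ← ei, ← ej, mat, di, dj, if_neg (by omega),
        if_neg (by omega), if_neg (by omega), if_pos (by omega)]
      simp only [val]
      rw [hc a σ, decide_eq_decide, Fin.ext_iff]
      omega
    · rw [ei, ej, hin, if_neg (by omega), if_neg (by omega), if_neg (by omega),
        if_neg (by omega), decide_eq_decide]
      simp only [Fin.ext_iff, Fin.val_one]
      omega
  have := Finset.card_pos.2 ⟨_, hmem⟩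
  rw [card_copySet, hB] at this
  exact absurd this (lt_irrefl 0)

/-- One step: eight known ones force the middle entry. -/
theorem forced {B : Fin (size (M + 3)) → Fin (size (M + 3)) → Bool}
    (hB : copyCount pat B = 0) {t t' : Fin (2 ^ M)} {RM CM : Fin 3 → Fin 5 × Fin (2 ^ M)}
    (hg : Good B t t' RM CM) {a o d w w' : ℕ} (ha : a ≤ M + 3 + 1) (ho : o < 2) (hd : d < 2)
    (gL gR gL' gR' : Fin 3)
    (d1 : dig (M + 3) a (lf (RM gL)) = d) (d2 : dig (M + 3) a (lf (RM gR)) = d)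
    (d3 : dig (M + 3) a (lf (CM gL')) = d) (d4 : dig (M + 3) a (lf (CM gR')) = d)
    (hw : w < wid (M + 3)) (hw' : w' < wid (M + 3))
    (hj : a + 1 ≤ jof (M + 3) w ∧ jof (M + 3) w ≤ M + 3 + 2)
    (hj' : a + 1 ≤ jof (M + 3) w' ∧ jof (M + 3) w' ≤ M + 3 + 2)
    (he : o = 0 → jof (M + 3) w = a + 1) (he' : o = 1 → jof (M + 3) w' = a + 1)
    (ordL : lf (RM gL) * wid (M + 3) + a < lf (RM 1) * wid (M + 3) + w)
    (ordR : lf (RM 1) * wid (M + 3) + w < lf (RM gR) * wid (M + 3) + (wid (M + 3) - 1 - a))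
    (ordL' : lf (CM gL') * wid (M + 3) + a < lf (CM 1) * wid (M + 3) + w')
    (ordR' : lf (CM 1) * wid (M + 3) + w' < lf (CM gR') * wid (M + 3) + (wid (M + 3) - 1 - a))
    (kLL : B (cellPos (RM gL) a) (cellPos (CM gL') a) = true)
    (kLM : B (cellPos (RM gL) a) (cellPos (CM 1) w') = true)
    (kLR : B (cellPos (RM gL) a) (cellPos (CM gR') (wid (M + 3) - 1 - a)) = true)
    (kML : B (cellPos (RM 1) w) (cellPos (CM gL') a) = true)
    (kMR : B (cellPos (RM 1) w) (cellPos (CM gR') (wid (M + 3) - 1 - a)) = true)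
    (kRL : B (cellPos (RM gR) (wid (M + 3) - 1 - a)) (cellPos (CM gL') a) = true)
    (kRM : B (cellPos (RM gR) (wid (M + 3) - 1 - a)) (cellPos (CM 1) w') = true)
    (kRR : B (cellPos (RM gR) (wid (M + 3) - 1 - a))
      (cellPos (CM gR') (wid (M + 3) - 1 - a)) = true) :
    B (cellPos (RM 1) w) (cellPos (CM 1) w') = true := by
  by_contra hne
  rw [Bool.not_eq_true] at hne
  have hwa : a < wid (M + 3) := by unfold wid; omega
  have hwb : wid (M + 3) - 1 - a < wid (M + 3) := by omega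
  refine assemble hB hg (mkLabel_lt ha ho hd).2
    ![(RM gL, a), (RM 1, w), (RM gR, wid (M + 3) - 1 - a)]
    ![(CM gL', a), (CM 1, w'), (CM gR', wid (M + 3) - 1 - a)] ?_ ?_ ?_ ?_ ?_ ?_ ?_ ?_ ?_
  · intro x; fin_cases x
    exacts [⟨gL, rfl⟩, ⟨1, rfl⟩, ⟨gR, rfl⟩]
  · intro x; fin_cases x
    exacts [⟨gL', rfl⟩, ⟨1, rfl⟩, ⟨gR', rfl⟩]
  · intro x; fin_cases x
    exacts [hwa, hw, hwb]
  · intro x; fin_cases x
    exacts [hwa, hw', hwb]
  · intro x y hxy; fin_cases x <;> fin_cases y <;> simp at hxy ⊢ <;> omega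
  · intro x y hxy; fin_cases x <;> fin_cases y <;> simp at hxy ⊢ <;> omega
  · intro x; fin_cases x
    exacts [cast_low ha ho hd d1, cast_mid ha ho hd hj.1 hj.2 he, cast_high ha ho hd d2]
  · intro x; fin_cases x
    exacts [cast_low ha ho hd d3, cast_mid ha ho hd hj'.1 hj'.2 he', cast_high ha ho hd d4]
  · intro x y
    fin_cases x <;> fin_cases y <;>
      simp [kLL, kLM, kLR, kML, hne, kMR, kRL, kRM, kRR]

/-- No free matrix agrees with the construction outside one square. -/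
theorem no_good {B : Fin (size (M + 3)) → Fin (size (M + 3)) → Bool}
    (hB : copyCount pat B = 0) (t t' q1 q q2 p1 p2 : Fin (2 ^ M))
    (hg : Good B t t' ![(0, q1), (2, q), (3, q2)] ![(1, p1), (2, q), (4, p2)]) : False := by
  let x0 : Fin 5 × Fin (2 ^ M) := (2, q)
  have hW : wid (M + 3) = 2 * (M + 3 + 4) := rfl
  have hlt : ∀ (x y : Fin 5 × Fin (2 ^ M)) (u v : ℕ), x.1 < y.1 → u < wid (M + 3) →
      lf x * wid (M + 3) + u < lf y * wid (M + 3) + v := by
    intro x y u v h hu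
    have h1 : (x.1.val + 1) * 2 ^ M ≤ y.1.val * 2 ^ M := Nat.mul_le_mul_right _ h
    rw [Nat.succ_mul] at h1
    have h2 : lf x < lf y := by
      have := x.2.isLt
      unfold lf
      omega
    have h3 : (lf x + 1) * wid (M + 3) ≤ lf y * wid (M + 3) := Nat.mul_le_mul_right _ h2
    rw [Nat.succ_mul] at h3
    omega
  have hval : ∀ (x y : Fin 5 × Fin (2 ^ M)) (u v : ℕ), u < wid (M + 3) → v < wid (M + 3) →
      mat (M + 3) (cellPos x u) (cellPos y v)
        = rel (M + 3) (lf x) (jof (M + 3) u) (lf y) (jof (M + 3) v) := by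
    intro x y u v hu hv'
    rw [mat, dec_cellPos x hu, dec_cellPos y hv']
    rfl
  have c0 : jof (M + 3) 0 = 0 := (jof_left (by omega)).1
  have c1 : jof (M + 3) (wid (M + 3) - 1 - 0) = 0 := (jof_right (by omega)).1
  have hlow : ∀ a b, ¬(a = 1 ∧ b = 1) → ∀ u v, u < wid (M + 3) → v < wid (M + 3) →
      (jof (M + 3) u = 0 ∧ jof (M + 3) v ≤ M + 3 + 2 ∨
        jof (M + 3) v = 0 ∧ jof (M + 3) u ≤ M + 3 + 2) →
      B (cellPos (![(0, q1), (2, q), (3, q2)] a) u) (cellPos (![(1, p1), (2, q), (4, p2)] b) v)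
        = true := by
    intro a b hab u v hu hv' h
    rw [hg.mm a b hab, hval _ _ _ _ hu hv']
    rcases h with ⟨h1, h2⟩ | ⟨h1, h2⟩
    · rw [h1]; exact rel_low (lf_lt _) (lf_lt _) h2
    · rw [h1, rel_comm]; exact rel_low (lf_lt _) (lf_lt _) h2
  have main : ∀ a, 1 ≤ a → a ≤ M + 3 + 2 → ∀ w w', w < wid (M + 3) → w' < wid (M + 3) →
      jof (M + 3) w ≤ M + 3 + 2 → jof (M + 3) w' ≤ M + 3 + 2 →
      min (jof (M + 3) w) (jof (M + 3) w') = a →
      B (cellPos x0 w) (cellPos x0 w') = true := by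
    intro a
    induction a using Nat.strong_induction_on with
    | _ a ih =>
      intro h1 h2 w w' hw hw' hj hj' hmin
      obtain ⟨b, rfl⟩ : ∃ b, a = b + 1 := ⟨a - 1, by omega⟩
      obtain ⟨o, ho, he, he'⟩ : ∃ o, o < 2 ∧ (o = 0 → jof (M + 3) w = b + 1) ∧
          (o = 1 → jof (M + 3) w' = b + 1) := by
        by_cases h : jof (M + 3) w = b + 1
        · exact ⟨0, by norm_num, fun _ => h, fun h => absurd h (by norm_num)⟩
        · exact ⟨1, by norm_num, fun h => absurd h (by norm_num), fun _ => by omega⟩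
      rcases Nat.eq_zero_or_pos b with rfl | hb
      · refine forced hB hg (a := 0) (d := 0) (by omega) ho (by norm_num) 0 2 0 2
          (dig_zero (lf_lt _)) (dig_zero (lf_lt _)) (dig_zero (lf_lt _)) (dig_zero (lf_lt _))
          hw hw' ⟨by omega, hj⟩ ⟨by omega, hj'⟩ he he' ?_ ?_ ?_ ?_ ?_ ?_ ?_ ?_ ?_ ?_ ?_ ?_
        · exact hlt _ _ _ _ (by simp) (by omega)
        · exact hlt _ _ _ _ (by simp) hw
        · exact hlt _ _ _ _ (by simp) (by omega)
        · exact hlt _ _ _ _ (by simp) hw'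
        all_goals
          refine hlow _ _ (by decide) _ _ (by omega) (by omega) ?_
          omega
      · have hk : ∀ u v, u < wid (M + 3) → v < wid (M + 3) → jof (M + 3) u ≤ M + 3 + 2 →
            jof (M + 3) v ≤ M + 3 + 2 → min (jof (M + 3) u) (jof (M + 3) v) = b →
            B (cellPos x0 u) (cellPos x0 v) = true :=
          ih b (by omega) hb (by omega)
        have e1 := (jof_left (show b < M + 3 + 4 by omega)).1
        have e2 := (jof_right (show b < M + 3 + 4 by omega)).1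
        have hjw : b < w ∧ w < wid (M + 3) - 1 - b ∧ b < w' ∧ w' < wid (M + 3) - 1 - b := by
          unfold jof at hmin
          split_ifs at hmin <;> omega
        refine forced hB hg (d := dig (M + 3) b (lf x0)) (by omega) ho (dig_lt _ _ _) 1 1 1 1
          rfl rfl rfl rfl hw hw' ⟨by omega, hj⟩ ⟨by omega, hj'⟩ he he' ?_ ?_ ?_ ?_
          ?_ ?_ ?_ ?_ ?_ ?_ ?_ ?_
        · omega
        · omega
        · omega
        · omega
        all_goals exact hk _ _ (by omega) (by omega) (by omega) (by omega) (by omega)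
  obtain ⟨cK, -⟩ := jof_left (show M + 3 + 2 < M + 3 + 4 by omega)
  obtain ⟨cD, -⟩ := jof_left (show M + 3 + 3 < M + 3 + 4 by omega)
  simp only [Nat.sub_zero] at c1
  obtain ⟨ca, cb, cc⟩ := cast_cap (L := M + 3) (side := 0) (s := lf x0)
  have hK : B (cellPos x0 (M + 3 + 2)) (cellPos x0 (M + 3 + 2)) = true :=
    main _ (by omega) le_rfl _ _ (by omega) (by omega) (by omega) (by omega) (by omega)
  refine assemble hB hg (l := 4 * (M + 3 + 2)) (by unfold lab; omega)
    ![(x0, M + 3 + 2), (((3 : Fin 5), q2), M + 3 + 3), (((3 : Fin 5), q2), wid (M + 3) - 1)]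
    ![(x0, M + 3 + 2), (((4 : Fin 5), p2), M + 3 + 3), (((4 : Fin 5), p2), wid (M + 3) - 1)]
    ?_ ?_ ?_ ?_ ?_ ?_ ?_ ?_ ?_
  · intro x; fin_cases x
    exacts [⟨1, rfl⟩, ⟨2, rfl⟩, ⟨2, rfl⟩]
  · intro x; fin_cases x
    exacts [⟨1, rfl⟩, ⟨2, rfl⟩, ⟨2, rfl⟩]
  · intro x; fin_cases x <;> simp <;> omega
  · intro x; fin_cases x <;> simp <;> omega
  · intro x y hxy
    fin_cases x <;> fin_cases y <;> simp at hxy ⊢ <;>
      first
      | omega
      | exact hlt _ _ _ _ (by simp [x0]) (by omega)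
  · intro x y hxy
    fin_cases x <;> fin_cases y <;> simp at hxy ⊢ <;>
      first
      | omega
      | exact hlt _ _ _ _ (by simp [x0]) (by omega)
  · intro x; fin_cases x
    exacts [cast_cap.1, cast_cap.2.1, cast_cap.2.2]
  · intro x; fin_cases x
    exacts [cast_cap.1, cast_cap.2.1, cast_cap.2.2]
  · have hm := hg.mm
    intro x y
    fin_cases x <;> fin_cases y
    · exact hK
    · refine (hm 1 2 (by decide) _ _).trans ?_
      simp [hval _ _ _ _ (show M + 3 + 2 < wid (M + 3) by omega)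
        (show M + 3 + 3 < wid (M + 3) by omega), cK, cD, rel_dummy]
    · exact hlow 1 2 (by decide) (M + 3 + 2) (wid (M + 3) - 1) (by omega) (by omega)
        (Or.inr ⟨c1, by omega⟩)
    · refine (hm 2 1 (by decide) _ _).trans ?_
      simp [hval _ _ _ _ (show M + 3 + 3 < wid (M + 3) by omega)
        (show M + 3 + 2 < wid (M + 3) by omega), cK, cD, rel_dummy]
    · refine (hm 2 2 (by decide) _ _).trans ?_
      simp [hval _ _ _ _ (show M + 3 + 3 < wid (M + 3) by omega)
        (show M + 3 + 3 < wid (M + 3) by omega), cD, rel_dummy]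
    · refine (hm 2 2 (by decide) _ _).trans ?_
      simp [hval _ _ _ _ (show M + 3 + 3 < wid (M + 3) by omega)
        (show wid (M + 3) - 1 < wid (M + 3) by omega), cD, c1, rel_dummy]
    · exact hlow 2 1 (by decide) (wid (M + 3) - 1) (M + 3 + 2) (by omega) (by omega)
        (Or.inl ⟨c1, by omega⟩)
    · refine (hm 2 2 (by decide) _ _).trans ?_
      simp [hval _ _ _ _ (show wid (M + 3) - 1 < wid (M + 3) by omega)
        (show M + 3 + 3 < wid (M + 3) by omega), cD, c1, rel_dummy]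
    · exact hlow 2 2 (by decide) (wid (M + 3) - 1) (wid (M + 3) - 1) (by omega) (by omega)
        (Or.inl ⟨c1, by omega⟩)

end Vale.Agent.P037.Disproof
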