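import Vale.Agent.P037.Disproof.Points

namespace Vale.Agent.P037.Disproof

theorem cl_coarsen {L k m a b : ℕ} (hmk : m ≤ k) (h : cl L k a = cl L k b) :
    cl L m a = cl L m b := by
  have key : ∀ s, cl L m s = cl L k s / 2 ^ ((L + 1 - m) - (L + 1 - k)) := by
    intro s
    unfold cl
    rw [Nat.div_div_eq_div_mul, ← pow_add]
    congr 2
    omega
  rw [key a, key b, h]

theorem cl_mono {L j s t : ℕ} (h : s ≤ t) : cl L j s ≤ cl L j t := Nat.div_le_div_right h

theorem cl_between {L j a b c : ℕ} (hab : a ≤ b) (hbc : b ≤ c) (h : cl L j a = cl L j c) :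
    cl L j b = cl L j a :=
  le_antisymm (h ▸ cl_mono hbc) (cl_mono hab)

theorem cl_child {L a s t : ℕ} (ha : a ≤ L) (h : cl L a s = cl L a t)
    (hd : dig L a s = dig L a t) : cl L (a + 1) s = cl L (a + 1) t := by
  have key : ∀ x, cl L a x = cl L (a + 1) x / 2 := by
    intro x
    unfold cl
    rw [Nat.div_div_eq_div_mul, ← pow_succ]
    congr 2
    omega
  rw [key s, key t] at h
  unfold dig at hd
  omega

theorem dig_lt (L j s : ℕ) : dig L j s < 2 := Nat.mod_lt _ (by norm_num)

theorem rel_iff {L s j t i : ℕ} (hj : j ≤ L + 2) (hi : i ≤ L + 2) :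
    rel L s j t i = true ↔
      (¬(j = L + 2 ∧ i = L + 2)) ∧ cl L (min j i) s = cl L (min j i) t := by
  unfold rel
  rw [if_neg (by omega), decide_eq_true_iff]

theorem rel_comm (L s j t i : ℕ) : rel L s j t i = rel L t i s j := by
  unfold rel
  rw [min_comm j i]
  by_cases h : j = L + 3 ∨ i = L + 3
  · rw [if_pos h, if_pos h.symm]
    simp [ne_comm]
  · rw [if_neg h, if_neg (fun e => h e.symm)]
    simp only [decide_eq_decide]
    constructor <;> rintro ⟨h1, h2⟩ <;> exact ⟨fun e => h1 e.symm, h2.symm⟩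

/-- The bands of anchors form a laminar family. -/
theorem bands_laminar (L side : ℕ) (ρ ρ' : Fin 3) (l l' : ℕ) :
    (lo L ρ l ≤ lo L ρ' l' ∧ hi L side ρ' l' ≤ hi L side ρ l) ∨
    (lo L ρ' l' ≤ lo L ρ l ∧ hi L side ρ l ≤ hi L side ρ' l') ∨
    hi L side ρ l < lo L ρ' l' ∨ hi L side ρ' l' < lo L ρ l := by
  unfold hi lo
  have := ρ.isLt
  have := ρ'.isLt
  split_ifs <;> omega

/-- Common neighbour lemma: if a column pair has crossing neighbourhoods, a common
neighbour has smaller index. -/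
theorem crossing_lt {L : ℕ} {s j t1 i1 t2 i2 s2 j2 : ℕ}
    (hj : j ≤ L + 2) (hi1 : i1 ≤ L + 2) (hi2 : i2 ≤ L + 2) (hj2 : j2 ≤ L + 2)
    (h1 : rel L s j t1 i1 = true) (h2 : rel L s j t2 i2 = true)
    (h3 : rel L s2 j2 t2 i2 = true) (h4 : rel L s2 j2 t1 i1 = false) (hle : i1 ≤ i2) :
    j < i1 := by
  by_contra hlt
  push Not at hlt
  rw [rel_iff hj hi1] at h1
  rw [rel_iff hj hi2] at h2
  rw [rel_iff hj2 hi2] at h3
  have h4' : ¬ (rel L s2 j2 t1 i1 = true) := by simp [h4]
  rw [rel_iff hj2 hi1] at h4'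
  apply h4'
  rw [min_eq_right hlt] at h1
  have hc : cl L i1 t1 = cl L i1 t2 :=
    h1.2.symm.trans (cl_coarsen (le_min hlt hle) h2.2)
  refine ⟨fun e => h1.1 ⟨by omega, e.2⟩, ?_⟩
  rcases le_total i1 j2 with hle2 | hle2
  · rw [min_eq_right hle2, hc]
    exact cl_coarsen (le_min hle2 hle) h3.2
  · rw [min_eq_left hle2]
    rw [min_eq_left (hle2.trans hle)] at h3
    exact h3.2.trans (cl_coarsen hle2 hc.symm)

/-- No six main points below the top index form a six-cycle. -/
theorem no_hexagon {L : ℕ} (s j t i : Fin 3 → ℕ) (hj : ∀ a, j a ≤ L + 2)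
    (hi : ∀ a, i a ≤ L + 2) (h : ∀ a b, rel L (s a) (j a) (t b) (i b) = decide (a ≠ b)) :
    False := by
  have key : ∀ (s j t i : Fin 3 → ℕ), (∀ a, j a ≤ L + 2) → (∀ a, i a ≤ L + 2) →
      (∀ a b, rel L (s a) (j a) (t b) (i b) = decide (a ≠ b)) →
      ∀ a b, a ≠ b → j a < i b := by
    intro s j t i hj hi h a b hab
    obtain ⟨c, hca, hcb⟩ : ∃ c : Fin 3, c ≠ a ∧ c ≠ b := by
      revert hab
      revert a b
      decide
    rcases le_total (i b) (i c) with hle | hle
    · exact crossing_lt (hj a) (hi b) (hi c) (hj b) (by rw [h]; simp [hab])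
        (by rw [h]; simp [hca.symm]) (by rw [h]; simp [hcb.symm]) (by rw [h]; simp) hle
    · exact lt_of_lt_of_le (crossing_lt (hj a) (hi c) (hi b) (hj c) (by rw [h]; simp [hca.symm])
        (by rw [h]; simp [hab]) (by rw [h]; simp [hcb]) (by rw [h]; simp) hle) hle
  have h1 := key s j t i hj hi h 0 1 (by decide)
  have h2 := key t i s j hi hj (fun a b => by rw [rel_comm, h]; simp [ne_comm]) 1 0 (by decide)
  omega

/-- The bound on indices of main points. -/
def Bdd (L : ℕ) : Pt → Prop
  | .main _ j _ => j ≤ L + 3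
  | _ => True

/-- Two four-tuples of non-marker points of fixed kinds do not show the pattern `≠`. -/
theorem no_offdiag (L : ℕ) (p q : Fin 4 → Pt) (hp : ∀ a, Bdd L (p a)) (hq : ∀ a, Bdd L (q a))
    (hpk : ∀ a, kind (p a) = kind (p 0)) (hqk : ∀ a, kind (q a) = kind (q 0))
    (hp0 : kind (p 0) ≠ 0) (hq0 : kind (q 0) ≠ 0)
    (h : ∀ a b, val L (p a) (q b) = decide (a ≠ b)) : False := by
  have hP : ∀ a, (∃ ρ l, p a = .anchor ρ l ∧ kind (p 0) = 1) ∨
      (∃ s j hh, p a = .main s j hh ∧ kind (p 0) = 2) := by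
    intro a
    have := hpk a
    cases hh : p a with
    | mark r => rw [hh] at this; exact absurd this.symm (by assumption)
    | anchor ρ l => rw [hh] at this; simp [kind] at this; exact Or.inl ⟨ρ, l, rfl, this.symm⟩
    | main s j b => rw [hh] at this; simp [kind] at this; exact Or.inr ⟨s, j, b, rfl, this.symm⟩
  have hQ : ∀ a, (∃ ρ l, q a = .anchor ρ l ∧ kind (q 0) = 1) ∨
      (∃ s j hh, q a = .main s j hh ∧ kind (q 0) = 2) := by
    intro a
    have := hqk a
    cases hh : q a with
    | mark r => rw [hh] at this; exact absurd this.symm (by assumption)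
    | anchor ρ l => rw [hh] at this; simp [kind] at this; exact Or.inl ⟨ρ, l, rfl, this.symm⟩
    | main s j b => rw [hh] at this; simp [kind] at this; exact Or.inr ⟨s, j, b, rfl, this.symm⟩
  by_cases kp : kind (p 0) = 1 <;> by_cases kq : kind (q 0) = 1
  · have hP' : ∀ a, ∃ ρ l, p a = .anchor ρ l := fun a => by
      rcases hP a with ⟨ρ, l, e, -⟩ | ⟨-, -, -, -, e⟩
      · exact ⟨ρ, l, e⟩
      · omega
    have hQ' : ∀ a, ∃ ρ l, q a = .anchor ρ l := fun a => by
      rcases hQ a with ⟨ρ, l, e, -⟩ | ⟨-, -, -, -, e⟩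
      · exact ⟨ρ, l, e⟩
      · omega
    choose ρ l hl using hP'
    choose ρ' l' hl' using hQ'
    have e : ∀ a b, (l a = l' b) ↔ a ≠ b := by
      intro a b
      have := h a b
      rw [hl, hl'] at this
      exact decide_eq_decide.1 this
    have h1 := (e 0 1).2 (by decide)
    have h2 := (e 2 1).2 (by decide)
    have h3 := (e 2 0).2 (by decide)
    exact (e 0 0).1 (by omega) rfl
  · have hP' : ∀ a, ∃ ρ l, p a = .anchor ρ l := fun a => by
      rcases hP a with ⟨ρ, l, e, -⟩ | ⟨-, -, -, -, e⟩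
      · exact ⟨ρ, l, e⟩
      · omega
    have hQ' : ∀ a, ∃ s j hh, q a = .main s j hh := fun a => by
      rcases hQ a with ⟨-, -, -, e⟩ | ⟨s, j, hh, e, -⟩
      · omega
      · exact ⟨s, j, hh, e⟩
    choose ρ l hl using hP'
    choose s j hh hl' using hQ'
    have e : ∀ a b, (lo L (ρ a) (l a) ≤ key L (s b) (j b) (hh b) ∧
        key L (s b) (j b) (hh b) ≤ hi L 1 (ρ a) (l a)) ↔ a ≠ b := by
      intro a b
      have := h a b
      rw [hl, hl'] at this
      exact decide_eq_decide.1 this
    have h1 := (e 0 1).2 (by decide)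
    have h2 := (e 0 2).2 (by decide)
    have h3 := (e 1 0).2 (by decide)
    have h4 := (e 1 2).2 (by decide)
    have h5 := mt (e 0 0).1 (by simp)
    have h6 := mt (e 1 1).1 (by simp)
    rcases bands_laminar L 1 (ρ 0) (ρ 1) (l 0) (l 1) with h7 | h7 | h7 | h7 <;> omega
  · have hQ' : ∀ a, ∃ ρ l, q a = .anchor ρ l := fun a => by
      rcases hQ a with ⟨ρ, l, e, -⟩ | ⟨-, -, -, -, e⟩
      · exact ⟨ρ, l, e⟩
      · omega
    have hP' : ∀ a, ∃ s j hh, p a = .main s j hh := fun a => by
      rcases hP a with ⟨-, -, -, e⟩ | ⟨s, j, hh, e, -⟩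
      · omega
      · exact ⟨s, j, hh, e⟩
    choose ρ l hl using hQ'
    choose s j hh hl' using hP'
    have e : ∀ a b, (lo L (ρ a) (l a) ≤ key L (s b) (j b) (hh b) ∧
        key L (s b) (j b) (hh b) ≤ hi L 0 (ρ a) (l a)) ↔ b ≠ a := by
      intro a b
      have := h b a
      rw [hl, hl'] at this
      exact decide_eq_decide.1 this
    have h1 := (e 0 1).2 (by decide)
    have h2 := (e 0 2).2 (by decide)
    have h3 := (e 1 0).2 (by decide)
    have h4 := (e 1 2).2 (by decide)
    have h5 := mt (e 0 0).1 (by simp)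
    have h6 := mt (e 1 1).1 (by simp)
    rcases bands_laminar L 0 (ρ 0) (ρ 1) (l 0) (l 1) with h7 | h7 | h7 | h7 <;> omega
  · have hP' : ∀ a, ∃ s j hh, p a = .main s j hh := fun a => by
      rcases hP a with ⟨-, -, -, e⟩ | ⟨s, j, hh, e, -⟩
      · omega
      · exact ⟨s, j, hh, e⟩
    have hQ' : ∀ a, ∃ s j hh, q a = .main s j hh := fun a => by
      rcases hQ a with ⟨-, -, -, e⟩ | ⟨s, j, hh, e, -⟩
      · omega
      · exact ⟨s, j, hh, e⟩
    choose s j hh hl using hP'
    choose t i gg hl' using hQ'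
    have e : ∀ a b, rel L (s a) (j a) (t b) (i b) = decide (a ≠ b) := by
      intro a b
      have := h a b
      rw [hl, hl'] at this
      simpa [val] using this
    have hjb : ∀ a, j a ≤ L + 3 := fun a => by simpa [hl, Bdd] using hp a
    have hib : ∀ a, i a ≤ L + 3 := fun a => by simpa [hl', Bdd] using hq a
    have hsame : ∀ a, (j a = L + 3 ↔ i a = L + 3) := by
      intro a
      have h0 := e a a
      simp only [ne_eq, not_true_eq_false, decide_false] at h0
      unfold rel at h0
      constructor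
      · intro hja
        rw [if_pos (Or.inl hja)] at h0
        simp only [ne_eq, decide_eq_false_iff_not, not_not] at h0
        omega
      · intro hia
        rw [if_pos (Or.inr hia)] at h0
        simp only [ne_eq, decide_eq_false_iff_not, not_not] at h0
        omega
    obtain ⟨a0, ha0⟩ : ∃ a0, ∀ a, a ≠ a0 → j a ≠ L + 3 := by
      by_cases hD : ∃ a, j a = L + 3
      · obtain ⟨a0, ha⟩ := hD
        refine ⟨a0, fun a hne haD => ?_⟩
        have h0 := e a a0
        unfold rel at h0
        rw [if_pos (Or.inl haD)] at h0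
        simp only [ne_eq, hne, not_false_eq_true, decide_true, decide_eq_true_iff] at h0
        exact h0 (haD.trans ((hsame a0).1 ha).symm)
      · exact ⟨0, fun a _ h => hD ⟨a, h⟩⟩
    let f : Fin 3 → Fin 4 := a0.succAbove
    have hf : ∀ a, f a ≠ a0 := fun a => Fin.succAbove_ne a0 a
    refine no_hexagon (L := L) (fun a => s (f a)) (fun a => j (f a)) (fun a => t (f a))
      (fun a => i (f a)) (fun a => ?_) (fun a => ?_) (fun a b => ?_)
    · have := hjb (f a)
      have := ha0 _ (hf a)
      omega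
    · have := hib (f a)
      have := ha0 _ (hf a)
      have := hsame (f a)
      omega
    · rw [e]
      simp [f, Fin.succAbove_right_inj]

/-- The ordering facts shared by the rows and by the columns of a copy. -/
structure Ordered (L : ℕ) (r : Fin 16 → Pt) : Prop where
  kinds : ∀ i j, i ≤ j → kind (r i) ≤ kind (r j)
  roles : ∀ i j, i ≤ j → ∀ a l b l', r i = .anchor a l → r j = .anchor b l' → a ≤ b
  leaves : ∀ i j, i ≤ j → ∀ s a g t b h, r i = .main s a g → r j = .main t b h → s ≤ t
  bdd : ∀ i, Bdd L (r i)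

theorem kind_le_two : ∀ p : Pt, kind p ≤ 2
  | .mark _ => by simp [kind]
  | .anchor _ _ => by simp [kind]
  | .main _ _ _ => by simp [kind]

/-- Four consecutive marker rows of one non-marker kind, at residues `0..3`. -/
theorem window {L : ℕ} {r : Fin 16 → Pt} (hr : Ordered L r) (h3 : kind (r 3) ≠ 0) :
    ∃ f : Fin 4 → Fin 16, (∀ a, (f a).val < 10 ∧ (f a).val % 4 = a.val) ∧
      ∀ a, kind (r (f a)) = kind (r (f 0)) ∧ kind (r (f a)) ≠ 0 := by
  by_cases h : kind (r 6) = kind (r 3)
  · refine ⟨![4, 5, 6, 3], by decide, fun a => ?_⟩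
    have e : ∀ i : Fin 16, 3 ≤ i → i ≤ 6 → kind (r i) = kind (r 3) := fun i h1 h2 =>
      le_antisymm (h ▸ hr.kinds _ _ h2) (hr.kinds _ _ h1)
    fin_cases a <;> simp [e 4 (by decide) (by decide), e 5 (by decide) (by decide),
      e 6 (by decide) (by decide), h3]
  · refine ⟨![8, 9, 6, 7], by decide, fun a => ?_⟩
    have h6 : kind (r 6) = 2 := by
      have := hr.kinds 3 6 (by decide)
      have := kind_le_two (r 6)
      omega
    have e : ∀ i : Fin 16, 6 ≤ i → kind (r i) = 2 := fun i h1 =>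
      le_antisymm (kind_le_two _) (h6 ▸ hr.kinds _ _ h1)
    fin_cases a <;> simp [e 6 (by decide), e 7 (by decide), e 8 (by decide), e 9 (by decide)]

theorem val_mark_col_const (L : ℕ) (p q x : Pt) (hx : kind x = 0) (hp : kind p ≠ 0)
    (hpq : kind p = kind q) : val L p x = val L q x := by
  cases x <;> cases p <;> cases q <;> simp_all [kind, val]

theorem mark3 {L : ℕ} {r c : Fin 16 → Pt} (hr : Ordered L r) (hc : Ordered L c)
    (h : ∀ i j, val L (r i) (c j) = hv i.val j.val) : kind (r 3) = 0 := by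
  by_contra h3
  obtain ⟨f, hf, hfk⟩ := window hr h3
  have hcol : ∀ j : Fin 16, j.val < 10 → kind (c j) ≠ 0 := by
    intro j hj hj0
    obtain ⟨a, ha⟩ : ∃ a : Fin 4, a.val = j.val % 4 := ⟨⟨j.val % 4, by omega⟩, rfl⟩
    obtain ⟨b, hb⟩ : ∃ b : Fin 4, b.val ≠ j.val % 4 :=
      ⟨if j.val % 4 = 0 then 1 else 0, by split_ifs <;> simp <;> omega⟩
    have := val_mark_col_const L (r (f a)) (r (f b)) (c j) hj0 (hfk a).2
      ((hfk a).1.trans (hfk b).1.symm)
    rw [h, h] at this
    simp only [hv, (hf a).1, (hf b).1, hj, if_true, (hf a).2, (hf b).2, ha, ne_eq,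
      not_true_eq_false, decide_false] at this
    simp [hb] at this
  obtain ⟨g, hg, hgk⟩ := window hc (hcol 3 (by decide))
  refine no_offdiag L (fun a => r (f a)) (fun a => c (g a)) (fun a => hr.bdd _)
    (fun a => hc.bdd _) (fun a => (hfk a).1) (fun a => (hgk a).1) (hfk 0).2 (hgk 0).2
    (fun a b => ?_)
  rw [h]
  simp [hv, (hf a).1, (hg b).1, (hf a).2, (hg b).2, Fin.val_inj]

/-- The kinds of the last six indices. -/
theorem core_kinds {L : ℕ} {r c : Fin 16 → Pt} (hr : Ordered L r) (hc : Ordered L c)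
    (h : ∀ i j, val L (r i) (c j) = hv i.val j.val) (hc3 : kind (c 3) = 0) (x : Fin 16)
    (hx : 10 ≤ x.val) :
    (x.val < 13 → ∃ ρ l, c x = .anchor ρ l) ∧ (13 ≤ x.val → ∃ s j b, c x = .main s j b) := by
  have h3 := mark3 hr hc h
  have hrm : ∀ i : Fin 4, ∃ a, r ⟨i.val, by omega⟩ = .mark a := by
    intro i
    have hk : kind (r ⟨i.val, by omega⟩) = 0 :=
      Nat.le_zero.1 (h3 ▸ hr.kinds _ 3 (Fin.le_def.2 (by simp; omega)))
    cases hh : r ⟨i.val, by omega⟩ <;> simp_all [kind]
  have hcm : ∀ i : Fin 4, ∃ a, c ⟨i.val, by omega⟩ = .mark a := by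
    intro i
    have hk : kind (c ⟨i.val, by omega⟩) = 0 :=
      Nat.le_zero.1 (hc3 ▸ hc.kinds _ 3 (Fin.le_def.2 (by simp; omega)))
    cases hh : c ⟨i.val, by omega⟩ <;> simp_all [kind]
  choose ρ hρ using hrm
  choose σ hσ using hcm
  have e : ∀ i j : Fin 4, (ρ i ≠ σ j) ↔ i ≠ j := by
    intro i j
    have := h ⟨i.val, by omega⟩ ⟨j.val, by omega⟩
    rw [hρ, hσ] at this
    simp only [val, hv] at this
    rw [if_pos (by omega), if_pos (by omega), Nat.mod_eq_of_lt i.isLt, Nat.mod_eq_of_lt j.isLt]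
      at this
    exact (decide_eq_decide.1 this).trans (not_congr Fin.val_inj)
  have hinj : Function.Injective ρ := by
    intro a b hab
    by_contra hne
    have h1 : ρ a = σ a := by_contra (fun h1 => (e a a).1 h1 rfl)
    have h2 := (e b a).2 (fun h => hne h.symm)
    exact h2 (hab ▸ h1)
  have hv4 : ∀ i : Fin 4, hv i.val x.val = decide (13 ≤ x.val) := by
    intro i
    simp only [hv]
    rw [if_pos (by omega), if_neg (by omega)]
  have hxk : kind (c x) = if x.val < 13 then 1 else 2 := by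
    cases hh : c x with
    | mark t =>
      exfalso
      obtain ⟨i, hi⟩ := Finite.surjective_of_injective hinj t
      obtain ⟨i', hi'⟩ : ∃ i', ρ i' ≠ t := ⟨if i = 0 then 1 else 0, fun e' => by
        have := hinj (e'.trans hi.symm)
        split_ifs at this with h0
        · rw [h0] at this; exact absurd this (by decide)
        · exact h0 this.symm⟩
      have h1 := h ⟨i.val, by omega⟩ x
      have h2 := h ⟨i'.val, by omega⟩ x
      rw [hρ, hh] at h1 h2
      simp only [val, hv4] at h1 h2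
      simp [hi] at h1
      simp [hi'] at h2
      omega
    | anchor a l =>
      have h1 := h ⟨0, by omega⟩ x
      rw [show (⟨0, by omega⟩ : Fin 16) = ⟨(0 : Fin 4).val, by omega⟩ from rfl, hρ, hh] at h1
      simp only [val, hv4] at h1
      simp at h1
      simp [kind, show x.val < 13 by omega]
    | main s j b =>
      have h1 := h ⟨0, by omega⟩ x
      rw [show (⟨0, by omega⟩ : Fin 16) = ⟨(0 : Fin 4).val, by omega⟩ from rfl, hρ, hh] at h1
      simp only [val, hv4] at h1
      simp at h1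
      simp [kind, show ¬ x.val < 13 by omega]
  constructor
  · intro hlt
    rw [if_pos hlt] at hxk
    cases hh : c x <;> simp_all [kind]
  · intro hge
    rw [if_neg (by omega)] at hxk
    cases hh : c x <;> simp_all [kind]

theorem val_swap_sym (L : ℕ) (p q : Pt) (hp : kind p = 0) : val L p q = val L q p := by
  cases p <;> cases q <;> simp_all [kind, val, ne_comm]

end Vale.Agent.P037.Disproof
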