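import Vale.Agent.P037.Disproof.Classify

namespace Vale.Agent.P037.Disproof

theorem val_mark_sym (L : ℕ) (p q : Pt) : kind p = 0 → val L p q = val L q p :=
  val_swap_sym L p q

/-- The columns satisfy the marker condition as well. -/
theorem mark3_cols {L : ℕ} {r c : Fin 16 → Pt} (hr : Ordered L r) (hc : Ordered L c)
    (h : ∀ i j, val L (r i) (c j) = hv i.val j.val) : kind (c 3) = 0 := by
  by_contra h3
  obtain ⟨g, hg, hgk⟩ := window hc h3
  have hr3 := mark3 hr hc h
  have hc3 : kind (c (g 0)) ≠ 0 := (hgk 0).2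
  obtain ⟨a, ha⟩ : ∃ a, r 3 = .mark a := by
    cases hh : r 3 <;> simp_all [kind]
  have e1 := h 3 (g 0)
  have e2 := h 3 (g 3)
  rw [ha] at e1 e2
  have hk := (hgk 3).1
  have : val L (.mark a) (c (g 0)) = val L (.mark a) (c (g 3)) := by
    cases hh : c (g 0) <;> cases hh' : c (g 3) <;> simp_all [kind, val]
  rw [e1, e2] at this
  simp [hv, (hg 0).1, (hg 3).1, (hg 0).2, (hg 3).2] at this

/-- An accepting anchor pins the code. -/
theorem judge_iff {L side : ℕ} {ρ : Fin 3} {l s j : ℕ} {b : Bool} :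
    judge L side ρ l s j b = true ↔
      lo L ρ l ≤ key L s j b ∧ key L s j b ≤ hi L side ρ l := by
  simp [judge]

theorem roles_eq {r0 r1 r2 : Fin 3} (h1 : r0 < r1) (h2 : r1 < r2) :
    r0 = 0 ∧ r1 = 1 ∧ r2 = 2 := by
  refine ⟨Fin.ext ?_, Fin.ext ?_, Fin.ext ?_⟩ <;>
    · have := r2.isLt
      simp only [Fin.lt_def] at h1 h2
      simp
      omega

/-- Every weakly ordered copy has row 13 and column 13 in one leaf. -/
theorem classify {L : ℕ} {r c : Fin 16 → Pt} (hr : Ordered L r) (hc : Ordered L c)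
    (h : ∀ i j, val L (r i) (c j) = hv i.val j.val) :
    ∃ s a b a' b', r 13 = .main s a b ∧ c 13 = .main s a' b' := by
  have hr3 := mark3 hr hc h
  have hc3 := mark3_cols hr hc h
  have hCk := core_kinds hr hc h hc3
  have hRk : ∀ x : Fin 16, 10 ≤ x.val →
      (x.val < 13 → ∃ ρ l, r x = .anchor ρ l) ∧ (13 ≤ x.val → ∃ s j b, r x = .main s j b) := by
    intro x hx
    have hcm : ∀ i : Fin 16, i.val ≤ 3 → kind (c i) = 0 := fun i hi =>
      Nat.le_zero.1 (hc3 ▸ hc.kinds _ 3 (Fin.le_def.2 hi))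
    have hrm : ∀ i : Fin 16, i.val ≤ 3 → kind (r i) = 0 := fun i hi =>
      Nat.le_zero.1 (hr3 ▸ hr.kinds _ 3 (Fin.le_def.2 hi))
    have hfirst : ∀ i : Fin 4, ∀ j : Fin 4, val L (c ⟨i.val, by omega⟩) (r ⟨j.val, by omega⟩)
        = hv i.val j.val := by
      intro i j
      rw [val_mark_sym L _ _ (hcm _ (by simp; omega)), h]
      simp only [hv]
      rw [if_pos (by omega), if_pos (by omega), if_pos (by omega), if_pos (by omega)]
      exact decide_eq_decide.2 ne_comm
    let r' : Fin 16 → Pt := fun i => if i.val < 4 then r i else r x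
    obtain ⟨k, hk⟩ : ∃ k, k = kind (r x) := ⟨_, rfl⟩
    have hxv : ∀ i : Fin 16, i.val < 4 →
        val L (c i) (r x) = decide (13 ≤ x.val) := by
      intro i hi
      rw [val_mark_sym L _ _ (hcm _ (by omega)), h]
      simp only [hv]
      rw [if_neg (by omega), if_pos (by omega)]
    have hmk : ∀ i : Fin 4, ∃ a, c ⟨i.val, by omega⟩ = .mark a := by
      intro i
      have := hcm ⟨i.val, by omega⟩ (by simp; omega)
      cases hh : c ⟨i.val, by omega⟩ <;> simp_all [kind]
    have hmr : ∀ i : Fin 4, ∃ a, r ⟨i.val, by omega⟩ = .mark a := by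
      intro i
      have := hrm ⟨i.val, by omega⟩ (by simp; omega)
      cases hh : r ⟨i.val, by omega⟩ <;> simp_all [kind]
    choose σ hσ using hmk
    choose ρ hρ using hmr
    have hinj : Function.Injective σ := by
      intro a b hab
      by_contra hne
      have h1 := hfirst a a
      have h2 := hfirst b a
      rw [hσ, hρ] at h1 h2
      simp only [val, hv] at h1 h2
      rw [if_pos (by omega), if_pos (by omega)] at h1 h2
      simp only [Nat.mod_eq_of_lt a.isLt, Nat.mod_eq_of_lt b.isLt, decide_eq_decide] at h1 h2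
      rw [← hab] at h2
      exact (h1.1 (h2.2 (fun e => hne (Fin.val_inj.1 e.symm)))) rfl
    cases hh : r x with
    | mark t =>
      exfalso
      obtain ⟨i, hi⟩ := Finite.surjective_of_injective hinj t
      obtain ⟨i', hi'⟩ : ∃ i', σ i' ≠ t := by
        refine ⟨if i = 0 then 1 else 0, fun e' => ?_⟩
        have := hinj (e'.trans hi.symm)
        split_ifs at this with h0
        · rw [h0] at this; exact absurd this (by decide)
        · exact h0 this.symm
      have h1 := hxv ⟨i.val, by omega⟩ i.isLt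
      have h2 := hxv ⟨i'.val, by omega⟩ i'.isLt
      rw [hσ, hh] at h1 h2
      simp [val, hi] at h1
      simp [val, hi'] at h2
      omega
    | anchor a l =>
      have h1 := hxv ⟨(0 : Fin 4).val, by omega⟩ (by simp)
      rw [hσ, hh] at h1
      simp [val] at h1
      exact ⟨fun _ => ⟨a, l, rfl⟩, fun h' => absurd h' (by omega)⟩
    | main s j b =>
      have h1 := hxv ⟨(0 : Fin 4).val, by omega⟩ (by simp)
      rw [hσ, hh] at h1
      simp [val] at h1
      exact ⟨fun h' => absurd h' (by omega), fun _ => ⟨s, j, b, rfl⟩⟩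
  obtain ⟨ρ0, l, hR10⟩ := (hRk 10 (by decide)).1 (by decide)
  obtain ⟨ρ1, l1, hR11⟩ := (hRk 11 (by decide)).1 (by decide)
  obtain ⟨ρ2, l2, hR12⟩ := (hRk 12 (by decide)).1 (by decide)
  obtain ⟨σ0, m, hC10⟩ := (hCk 10 (by decide)).1 (by decide)
  obtain ⟨σ1, m1, hC11⟩ := (hCk 11 (by decide)).1 (by decide)
  obtain ⟨σ2, m2, hC12⟩ := (hCk 12 (by decide)).1 (by decide)
  obtain ⟨s0, j0, b0, hR13⟩ := (hRk 13 (by decide)).2 (by decide)
  obtain ⟨s1, j1, b1, hR14⟩ := (hRk 14 (by decide)).2 (by decide)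
  obtain ⟨s2, j2, b2, hR15⟩ := (hRk 15 (by decide)).2 (by decide)
  obtain ⟨t0, i0, g0, hC13⟩ := (hCk 13 (by decide)).2 (by decide)
  obtain ⟨t1, i1, g1, hC14⟩ := (hCk 14 (by decide)).2 (by decide)
  obtain ⟨t2, i2, g2, hC15⟩ := (hCk 15 (by decide)).2 (by decide)
  have hlab : ∀ i j : Fin 16, 10 ≤ i.val → i.val < 13 → 10 ≤ j.val → j.val < 13 →
      ∀ a x b y, r i = .anchor a x → c j = .anchor b y → x = y := by
    intro i j h1 h2 h3 h4 a x b y ei ej
    have := h i j
    rw [ei, ej] at this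
    simp only [hv] at this
    rw [if_neg (by omega), if_neg (by omega), if_pos h2, if_pos h4] at this
    simpa [val] using this
  have hm : l = m := hlab 10 10 (by decide) (by decide) (by decide) (by decide) _ _ _ _ hR10 hC10
  have hm1 : l = m1 := hlab 10 11 (by decide) (by decide) (by decide) (by decide) _ _ _ _ hR10 hC11
  have hm2 : l = m2 := hlab 10 12 (by decide) (by decide) (by decide) (by decide) _ _ _ _ hR10 hC12
  have hl1 : l1 = l :=
    (hlab 11 10 (by decide) (by decide) (by decide) (by decide) _ _ _ _ hR11 hC10).trans hm.symm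
  have hl2 : l2 = l :=
    (hlab 12 10 (by decide) (by decide) (by decide) (by decide) _ _ _ _ hR12 hC10).trans hm.symm
  subst l1 l2 m m1 m2
  have q10 := h 10 13; rw [hR10, hC13] at q10
  have q11 := h 11 13; rw [hR11, hC13] at q11
  have q12 := h 11 14; rw [hR11, hC14] at q12
  have q13 := h 12 14; rw [hR12, hC14] at q13
  have q14 := h 12 15; rw [hR12, hC15] at q14
  have p10 := h 13 10; rw [hR13, hC10] at p10
  have p11 := h 13 11; rw [hR13, hC11] at p11
  have p12 := h 14 11; rw [hR14, hC11] at p12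
  have p13 := h 14 12; rw [hR14, hC12] at p13
  have p14 := h 15 12; rw [hR15, hC12] at p14
  simp [val, hv] at q10 q11 q12 q13 q14 p10 p11 p12 p13 p14
  have hρ01 : ρ0 < ρ1 := lt_of_le_of_ne (hr.roles 10 11 (by decide) _ _ _ _ hR10 hR11)
    (fun e => by rw [← e] at q11; rw [q10] at q11; simp at q11)
  have hρ12 : ρ1 < ρ2 := lt_of_le_of_ne (hr.roles 11 12 (by decide) _ _ _ _ hR11 hR12)
    (fun e => by rw [← e] at q13; rw [q12] at q13; simp at q13)
  have hσ01 : σ0 < σ1 := lt_of_le_of_ne (hc.roles 10 11 (by decide) _ _ _ _ hC10 hC11)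
    (fun e => by rw [← e] at p11; rw [p10] at p11; simp at p11)
  have hσ12 : σ1 < σ2 := lt_of_le_of_ne (hc.roles 11 12 (by decide) _ _ _ _ hC11 hC12)
    (fun e => by rw [← e] at p13; rw [p12] at p13; simp at p13)
  obtain ⟨rfl, rfl, rfl⟩ := roles_eq hρ01 hρ12
  obtain ⟨rfl, rfl, rfl⟩ := roles_eq hσ01 hσ12
  rw [judge_iff] at q10 q12 q14 p10 p12 p14
  have bj : ∀ (x : Fin 16) (s j : ℕ) (b : Bool), r x = .main s j b → j ≤ L + 3 :=
    fun x s j b e => by have := hr.bdd x; rw [e] at this; exact this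
  have bi : ∀ (x : Fin 16) (s j : ℕ) (b : Bool), c x = .main s j b → j ≤ L + 3 :=
    fun x s j b e => by have := hc.bdd x; rw [e] at this; exact this
  have hj0 := bj _ _ _ _ hR13
  have hi0 := bi _ _ _ _ hC13
  have e00 := h 13 13; rw [hR13, hC13] at e00
  have e02 := h 13 15; rw [hR13, hC15] at e02
  have e22 := h 15 15; rw [hR15, hC15] at e22
  have e20 := h 15 13; rw [hR15, hC13] at e20
  have e11 := h 14 14; rw [hR14, hC14] at e11
  simp [val, hv] at e00 e02 e22 e20 e11
  have hk : ∀ s j b, key L s j b = 4 * j + 2 * dig L j s + (if b then 1 else 0) :=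
    fun _ _ _ => rfl
  simp only [hk, lo, hi, Fin.val_zero, Fin.val_one, Fin.val_two] at q10 q12 q14 p10 p12 p14
  have dj0 := dig_lt L j0 s0
  have dj1 := dig_lt L j1 s1
  have dj2 := dig_lt L j2 s2
  have di0 := dig_lt L i0 t0
  have di1 := dig_lt L i1 t1
  have di2 := dig_lt L i2 t2
  by_cases hcap : 4 * (L + 2) ≤ l
  · simp only [if_pos hcap] at q10 p10
    simp only [if_true] at q10 p10
    have hjj : j0 = L + 2 := by cases b0 <;> simp at p10 <;> omega
    have hii : i0 = L + 2 := by cases g0 <;> simp at q10 <;> omega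
    subst hjj hii
    simp [rel] at e00
  simp only [if_neg hcap] at q10 q12 q14 p10 p12 p14
  simp at q10 q12 q14 p10 p12 p14
  obtain ⟨a, ha⟩ : ∃ a, a = l / 4 := ⟨_, rfl⟩
  obtain ⟨d, hd⟩ : ∃ d, d = l % 2 := ⟨_, rfl⟩
  rw [← ha, ← hd] at q10 q14 p10 p14
  rw [← ha] at q12 p12
  have haL : a ≤ L + 1 := by omega
  have hd2 : d < 2 := by omega
  have f0 : j0 = a ∧ dig L j0 s0 = d := by cases b0 <;> simp at p10 <;> omega
  have f2 : j2 = a ∧ dig L j2 s2 = d := by cases b2 <;> simp at p14 <;> omega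
  have g0' : i0 = a ∧ dig L i0 t0 = d := by cases g0 <;> simp at q10 <;> omega
  have g2' : i2 = a ∧ dig L i2 t2 = d := by cases g2 <;> simp at q14 <;> omega
  obtain ⟨rfl, fd0⟩ := f0
  obtain ⟨rfl, fd2⟩ := f2
  obtain ⟨rfl, gd0⟩ := g0'
  obtain ⟨rfl, gd2⟩ := g2'
  rw [rel_iff (by omega) (by omega), min_self] at e00 e02 e22 e20
  by_cases hlast : i2 = L + 1
  · subst hlast
    have : cl L (L + 1) s0 = s0 := by simp [cl]
    have h2 : cl L (L + 1) t0 = t0 := by simp [cl]
    have e := e00.2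
    rw [this, h2] at e
    subst e
    exact ⟨_, _, _, _, _, hR13, hC13⟩
  exfalso
  have haL' : i2 ≤ L := by omega
  have c00 := cl_child haL' e00.2 (fd0.trans gd0.symm)
  have c20 := cl_child haL' e20.2 (fd2.trans gd0.symm)
  have c02 := cl_child haL' e02.2 (fd0.trans gd2.symm)
  have cs := cl_between (hr.leaves 13 14 (by decide) _ _ _ _ _ _ hR13 hR14)
    (hr.leaves 14 15 (by decide) _ _ _ _ _ _ hR14 hR15) (c00.trans c20.symm)
  have ct := cl_between (hc.leaves 13 14 (by decide) _ _ _ _ _ _ hC13 hC14)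
    (hc.leaves 14 15 (by decide) _ _ _ _ _ _ hC14 hC15) (c00.symm.trans c02)
  have hj : (i2 + 1 ≤ j1 ∧ j1 ≤ L + 2) ∧ (i2 + 1 ≤ i1 ∧ i1 ≤ L + 2) ∧
      (j1 = i2 + 1 ∨ i1 = i2 + 1) := by
    have ho : l / 2 % 2 < 2 := Nat.mod_lt _ (by norm_num)
    cases b1 <;> cases g1 <;> simp at p12 q12 <;> split_ifs at p12 q12 <;> omega
  have hmin : min j1 i1 = i2 + 1 := by omega
  have h11 : rel L s1 j1 t1 i1 = true := by
    rw [rel_iff (by omega) (by omega), hmin]
    exact ⟨by omega, cs.trans (c00.trans ct.symm)⟩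
  rw [h11] at e11
  exact Bool.noConfusion e11

end Vale.Agent.P037.Disproof
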