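import Vale.Agent.P037.Disproof.Cascade

namespace Vale.Agent.P037.Disproof

open Finset
open scoped Classical

variable {M : ℕ}

/-- A position of a group: front segments or a leaf. -/
def posOpt (k : Option (Fin 5)) (q : Fin (2 ^ M)) (u : ℕ) : Fin (size (M + 3)) :=
  match k with
  | none => segPos q u
  | some b => cellPos (b, q) u

theorem posOpt_inj {k : Option (Fin 5)} {q q' : Fin (2 ^ M)} {u u' : ℕ}
    (h : posOpt k q u = posOpt k q' u') : q = q' := by
  cases k with
  | none =>
    simp only [posOpt, segPos, Fin.mk.injEq] at h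
    have h' := congrArg (· % 2 ^ (M + 3)) h
    simp only [Nat.add_mod, Nat.mul_mod_left, zero_add,
      Nat.mod_eq_of_lt (off_lt q), Nat.mod_eq_of_lt (off_lt q')] at h'
    exact Fin.ext h'
  | some b =>
    simp only [posOpt, cellPos, Fin.mk.injEq] at h
    have h1 : wid (M + 3) * lf (b, q) + u % wid (M + 3)
        = wid (M + 3) * lf (b, q') + u' % wid (M + 3) := by
      rw [mul_comm (wid (M + 3)), mul_comm (wid (M + 3))]
      omega
    have h2 := congrArg (· / wid (M + 3)) h1
    simp only [Nat.mul_add_div (wid_pos _),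
      Nat.div_eq_of_lt (Nat.mod_lt _ (wid_pos (M + 3))), add_zero] at h2
    simp only [lf] at h2
    exact Fin.ext (by omega)

/-- The kinds of the four row groups. -/
def rk : Fin 4 → Option (Fin 5) := ![none, some 0, some 2, some 3]

/-- The kinds of the four column groups. -/
def ck : Fin 4 → Option (Fin 5) := ![none, some 1, some 2, some 4]

/-- The coordinates used by the row groups. -/
def rc : Fin 4 → Fin 7 := ![0, 1, 4, 2]

/-- The coordinates used by the column groups. -/
def cc : Fin 4 → Fin 7 := ![3, 5, 4, 6]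

theorem rc_ne_cc : ∀ i j : Fin 4, ¬(i = 2 ∧ j = 2) → rc i ≠ cc j := by decide

theorem card_through (i j : Fin 4) (hij : ¬(i = 2 ∧ j = 2)) (x y : Fin (size (M + 3))) :
    (univ.filter (fun f : Fin 7 → Fin (2 ^ M) => ∃ u v,
      posOpt (rk i) (f (rc i)) u = x ∧ posOpt (ck j) (f (cc j)) v = y)).card * (2 ^ M) ^ 2
        ≤ (2 ^ M) ^ 7 := by
  rcases eq_empty_or_nonempty (univ.filter (fun f : Fin 7 → Fin (2 ^ M) => ∃ u v,
      posOpt (rk i) (f (rc i)) u = x ∧ posOpt (ck j) (f (cc j)) v = y)) with h | ⟨g, hg⟩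
  · rw [h, card_empty, zero_mul]
    exact Nat.zero_le _
  simp only [mem_filter, mem_univ, true_and] at hg
  obtain ⟨u0, v0, hu0, hv0⟩ := hg
  have hne := rc_ne_cc i j hij
  have hinj : Function.Injective ![rc i, cc j] := by
    intro a b hab
    fin_cases a <;> fin_cases b <;> simp_all
  have := card_fix_mul ![rc i, cc j] hinj ![g (rc i), g (cc j)]
  simp only [Fintype.card_fin] at this
  rw [← this]
  refine Nat.mul_le_mul_right _ (card_le_card fun f hf => ?_)
  simp only [mem_filter, mem_univ, true_and] at hf ⊢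
  obtain ⟨u, v, hu, hv⟩ := hf
  funext a
  fin_cases a
  · simpa using posOpt_inj (hu.trans hu0.symm)
  · simpa using posOpt_inj (hv.trans hv0.symm)

/-- The set of differing entries. -/
noncomputable def diffSet {n : ℕ} (A B : Fin n → Fin n → Bool) : Finset (Fin n × Fin n) :=
  univ.filter (fun p => A p.1 p.2 ≠ B p.1 p.2)

theorem card_diffSet {n : ℕ} (A B : Fin n → Fin n → Bool) :
    (diffSet A B).card = diffCount A B := by
  rw [diffCount, Nat.card_eq_fintype_card, Fintype.card_subtype, diffSet]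

theorem far_count {B : Fin (size (M + 3)) → Fin (size (M + 3)) → Bool}
    (hB : copyCount pat B = 0) : (2 ^ M) ^ 2 ≤ 15 * diffCount (mat (M + 3)) B := by
  let pairs : Finset (Fin 4 × Fin 4) := univ.filter (fun p => ¬(p.1 = 2 ∧ p.2 = 2))
  have hpairs : pairs.card = 15 := by decide
  let T : Fin 4 × Fin 4 → Fin (size (M + 3)) × Fin (size (M + 3)) →
      Finset (Fin 7 → Fin (2 ^ M)) := fun p z => univ.filter (fun f => ∃ u v,
      posOpt (rk p.1) (f (rc p.1)) u = z.1 ∧ posOpt (ck p.2) (f (cc p.2)) v = z.2)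
  have hcover : (univ : Finset (Fin 7 → Fin (2 ^ M))) ⊆
      pairs.biUnion (fun p => (diffSet (mat (M + 3)) B).biUnion (T p)) := by
    intro f _
    by_contra hf
    simp only [mem_biUnion, diffSet, mem_filter, mem_univ, true_and, pairs, T, not_exists,
      not_and] at hf
    have hag : ∀ i j : Fin 4, ¬(i = 2 ∧ j = 2) → ∀ u v,
        B (posOpt (rk i) (f (rc i)) u) (posOpt (ck j) (f (cc j)) v)
          = mat (M + 3) (posOpt (rk i) (f (rc i)) u) (posOpt (ck j) (f (cc j)) v) := by
      intro i j hij u v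
      by_contra hne
      exact hf (i, j) (fun h1 h2 => hij ⟨h1, h2⟩) (_, _) (fun e => hne e.symm) u v rfl rfl
    refine no_good hB (f 0) (f 3) (f 1) (f 4) (f 2) (f 5) (f 6)
      ⟨fun u v => hag 0 0 (by decide) u v, ?_, ?_, ?_⟩
    · intro u b v
      fin_cases b
      exacts [hag 0 1 (by decide) u v, hag 0 2 (by decide) u v, hag 0 3 (by decide) u v]
    · intro a u v
      fin_cases a
      exacts [hag 1 0 (by decide) u v, hag 2 0 (by decide) u v, hag 3 0 (by decide) u v]
    · intro a b hab u v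
      fin_cases a <;> fin_cases b
      exacts [hag 1 1 (by decide) u v, hag 1 2 (by decide) u v, hag 1 3 (by decide) u v,
        hag 2 1 (by decide) u v, absurd ⟨rfl, rfl⟩ hab, hag 2 3 (by decide) u v,
        hag 3 1 (by decide) u v, hag 3 2 (by decide) u v, hag 3 3 (by decide) u v]
  have hsum : ∀ p ∈ pairs, ((diffSet (mat (M + 3)) B).biUnion (T p)).card * (2 ^ M) ^ 2
      ≤ diffCount (mat (M + 3)) B * (2 ^ M) ^ 7 := by
    intro p hp
    calc _ ≤ (∑ z ∈ diffSet (mat (M + 3)) B, (T p z).card) * (2 ^ M) ^ 2 :=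
          Nat.mul_le_mul_right _ card_biUnion_le
      _ = ∑ z ∈ diffSet (mat (M + 3)) B, (T p z).card * (2 ^ M) ^ 2 := sum_mul _ _ _
      _ ≤ ∑ z ∈ diffSet (mat (M + 3)) B, (2 ^ M) ^ 7 :=
          sum_le_sum (fun z _ => card_through p.1 p.2 (mem_filter.1 hp).2 z.1 z.2)
      _ = _ := by rw [sum_const, smul_eq_mul, card_diffSet]
  have h : (2 ^ M) ^ 7 * (2 ^ M) ^ 2 ≤ 15 * (diffCount (mat (M + 3)) B * (2 ^ M) ^ 7) := by
    calc (2 ^ M) ^ 7 * (2 ^ M) ^ 2
        = (univ : Finset (Fin 7 → Fin (2 ^ M))).card * (2 ^ M) ^ 2 := by simp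
      _ ≤ (∑ p ∈ pairs, ((diffSet (mat (M + 3)) B).biUnion (T p)).card) * (2 ^ M) ^ 2 :=
          Nat.mul_le_mul_right _ ((card_le_card hcover).trans card_biUnion_le)
      _ = ∑ p ∈ pairs, ((diffSet (mat (M + 3)) B).biUnion (T p)).card * (2 ^ M) ^ 2 :=
          sum_mul _ _ _
      _ ≤ ∑ _p ∈ pairs, diffCount (mat (M + 3)) B * (2 ^ M) ^ 7 := sum_le_sum hsum
      _ = _ := by rw [sum_const, smul_eq_mul, hpairs]
  refine Nat.le_of_mul_le_mul_left ?_ (pow_pos (Nat.two_pow_pos M) 7)
  calc _ ≤ _ := h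
    _ = _ := by ring

/-- The matrix is far from freeness. -/
theorem far {B : Fin (size (M + 3)) → Fin (size (M + 3)) → Bool}
    (hB : copyCount pat B = 0) :
    size (M + 3) ^ 2
      ≤ 960 * (front (M + 3) + wid (M + 3)) ^ 2 * diffCount (mat (M + 3)) B := by
  calc size (M + 3) ^ 2 = 64 * (front (M + 3) + wid (M + 3)) ^ 2 * (2 ^ M) ^ 2 := by
        unfold size; ring
    _ ≤ 64 * (front (M + 3) + wid (M + 3)) ^ 2 * (15 * diffCount (mat (M + 3)) B) :=
        Nat.mul_le_mul_left _ (far_count hB)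
    _ = _ := by ring

end Vale.Agent.P037.Disproof
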