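import Vale.Agent.P037.Disproof.Far

namespace Vale.Agent.P037.Disproof

open Filter Topology

theorem poly_lt (c : ℝ) (hc : 0 < c) (N : ℕ) : ∃ M : ℕ,
    ((960 : ℝ) * 59 ^ 2 * ((M + 3 : ℕ) : ℝ) ^ 2) ^ N < c * 2 ^ (M + 3) := by
  have h := (tendsto_pow_const_div_const_pow_of_one_lt (2 * N)
    (show (1 : ℝ) < 2 by norm_num)).const_mul (((960 : ℝ) * 59 ^ 2) ^ N)
  rw [mul_zero] at h
  obtain ⟨m, hm⟩ := (eventually_atTop.1 (h.eventually (gt_mem_nhds hc)))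
  refine ⟨m, ?_⟩
  have := hm (m + 3) (by omega)
  rw [← mul_div_assoc, div_lt_iff₀ (by positivity)] at this
  calc _ = ((960 : ℝ) * 59 ^ 2) ^ N * ((m + 3 : ℕ) : ℝ) ^ (2 * N) := by
        rw [mul_pow ((960 : ℝ) * 59 ^ 2), ← pow_mul]
    _ < _ := this

theorem counterexample (c C : ℝ) (hc : 0 < c) :
    ∃ (n : ℕ) (A : Fin n → Fin n → Bool) (ε : ℝ), 1 ≤ n ∧ 0 < ε ∧ ε < 1 ∧
      (∀ B : Fin n → Fin n → Bool, copyCount pat B = 0 →
        ε * (n : ℝ) ^ 2 ≤ (diffCount A B : ℝ)) ∧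
      (copyCount pat A : ℝ) < c * ε ^ C * (n : ℝ) ^ (2 * 16) := by
  obtain ⟨N, hN⟩ : ∃ N : ℕ, C ≤ N := exists_nat_ge C
  obtain ⟨M, hM⟩ := poly_lt c hc N
  have hS : front (M + 3) + wid (M + 3) = 14 * (M + 3) + 45 := by
    unfold front lab wid; omega
  obtain ⟨S, hSdef⟩ : ∃ S, S = front (M + 3) + wid (M + 3) := ⟨_, rfl⟩
  obtain ⟨K, hK⟩ : ∃ K : ℝ, K = 960 * (S : ℝ) ^ 2 := ⟨_, rfl⟩
  have hS1 : (1 : ℝ) ≤ (S : ℝ) := by
    have : 1 ≤ S := by omega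
    exact_mod_cast this
  have hS2 : (S : ℝ) ≤ 59 * ((M + 3 : ℕ) : ℝ) := by
    have : S ≤ 59 * (M + 3) := by omega
    exact_mod_cast this
  have hK1 : 1 < K := by rw [hK]; nlinarith
  have hK0 : 0 < K := lt_trans one_pos hK1
  have hn : 0 < size (M + 3) := by
    have := wid_pos (M + 3)
    unfold size
    positivity
  refine ⟨size (M + 3), mat (M + 3), K⁻¹, hn, inv_pos.2 hK0, inv_lt_one_of_one_lt₀ hK1,
    fun B hB => ?_, ?_⟩
  · have h := far hB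
    rw [← hSdef] at h
    have h' : ((size (M + 3) : ℕ) : ℝ) ^ 2 ≤ K * (diffCount (mat (M + 3)) B : ℝ) := by
      rw [hK]
      exact_mod_cast h
    rw [inv_mul_le_iff₀ hK0]
    exact h'
  · have hc' : (copyCount pat (mat (M + 3)) : ℝ) * 2 ^ (M + 3)
        ≤ ((size (M + 3) : ℕ) : ℝ) ^ 32 := by exact_mod_cast few_copies (M + 3)
    have hpos : (0 : ℝ) < ((size (M + 3) : ℕ) : ℝ) := by exact_mod_cast hn
    have h1 : K ^ N < c * 2 ^ (M + 3) := by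
      refine lt_of_le_of_lt (pow_le_pow_left₀ hK0.le ?_ N) hM
      rw [hK, mul_assoc, ← mul_pow]
      gcongr
    have h2 : (K ^ N)⁻¹ ≤ K⁻¹ ^ C := by
      rw [← inv_pow, ← Real.rpow_natCast]
      exact Real.rpow_le_rpow_of_exponent_ge (inv_pos.2 hK0) (inv_le_one_of_one_le₀ hK1.le) hN
    have h3 : ((size (M + 3) : ℕ) : ℝ) ^ 32 / 2 ^ (M + 3)
        < c * (K ^ N)⁻¹ * ((size (M + 3) : ℕ) : ℝ) ^ 32 := by
      rw [div_lt_iff₀ (by positivity)]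
      have h4 : 1 < c * (K ^ N)⁻¹ * 2 ^ (M + 3) := by
        rw [mul_right_comm, ← div_eq_mul_inv, one_lt_div (by positivity)]
        exact h1
      calc _ = 1 * ((size (M + 3) : ℕ) : ℝ) ^ 32 := (one_mul _).symm
        _ < (c * (K ^ N)⁻¹ * 2 ^ (M + 3)) * ((size (M + 3) : ℕ) : ℝ) ^ 32 :=
            mul_lt_mul_of_pos_right h4 (pow_pos hpos _)
        _ = _ := by ring
    calc (copyCount pat (mat (M + 3)) : ℝ)
        ≤ ((size (M + 3) : ℕ) : ℝ) ^ 32 / 2 ^ (M + 3) := by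
          rw [le_div_iff₀ (by positivity)]; exact hc'
      _ < c * (K ^ N)⁻¹ * ((size (M + 3) : ℕ) : ℝ) ^ 32 := h3
      _ ≤ c * K⁻¹ ^ C * ((size (M + 3) : ℕ) : ℝ) ^ (2 * 16) := by
          norm_num
          gcongr

end Vale.Agent.P037.Disproof
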