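import Vale.Agent.P037.Disproof.Build

namespace Vale.Agent.P037.Disproof

/-- The label attached to an index, an orientation and a digit. -/
def mkLabel (a o d : ℕ) : ℕ := 4 * a + 2 * o + d

theorem mkLabel_lt {L a o d : ℕ} (ha : a ≤ L + 1) (ho : o < 2) (hd : d < 2) :
    mkLabel a o d < 4 * (L + 2) ∧ mkLabel a o d < lab L := by
  unfold mkLabel lab
  omega

theorem mkLabel_spec {a o d : ℕ} (ho : o < 2) (hd : d < 2) :
    mkLabel a o d / 4 = a ∧ mkLabel a o d % 2 = d ∧ mkLabel a o d / 2 % 2 = o := by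
  unfold mkLabel
  omega

/-- How a cell relates to the three anchor roles of a label. -/
def Cast (L side l : ℕ) (i : Fin 3) (s w : ℕ) : Prop :=
  ∀ ρ : Fin 3, judge L side ρ l s (jof L w) (half L w) = decide (ρ = i)

theorem cast_low {L side a o d s : ℕ} (ha : a ≤ L + 1) (ho : o < 2) (hd : d < 2)
    (hs : dig L a s = d) : Cast L side (mkLabel a o d) 0 s a := by
  intro ρ
  obtain ⟨h1, -⟩ := mkLabel_lt ha ho hd
  obtain ⟨h2, h3, h4⟩ := mkLabel_spec (a := a) ho hd
  obtain ⟨h5, h6⟩ := jof_left (show a < L + 4 by omega)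
  have h7 := ρ.isLt
  unfold judge key hi lo
  rw [h5, h6, hs, h2, h3, h4]
  simp only [if_neg (show ¬ 4 * (L + 2) ≤ mkLabel a o d by omega)]
  simp only [Fin.ext_iff, decide_eq_decide, Fin.val_zero, Bool.false_eq_true, if_false]
  split_ifs <;> omega

theorem cast_high {L side a o d s : ℕ} (ha : a ≤ L + 1) (ho : o < 2) (hd : d < 2)
    (hs : dig L a s = d) : Cast L side (mkLabel a o d) 2 s (wid L - 1 - a) := by
  intro ρ
  obtain ⟨h1, -⟩ := mkLabel_lt ha ho hd
  obtain ⟨h2, h3, h4⟩ := mkLabel_spec (a := a) ho hd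
  obtain ⟨h5, h6⟩ := jof_right (show a < L + 4 by omega)
  have h7 := ρ.isLt
  unfold judge key hi lo
  rw [h5, h6, hs, h2, h3, h4]
  simp only [if_neg (show ¬ 4 * (L + 2) ≤ mkLabel a o d by omega)]
  simp only [Fin.ext_iff, decide_eq_decide, Fin.val_two, if_true]
  split_ifs <;> omega

theorem cast_mid {L side a o d s w : ℕ} (ha : a ≤ L + 1) (ho : o < 2) (hd : d < 2)
    (hlo : a + 1 ≤ jof L w) (hhi : jof L w ≤ L + 2) (hex : o = side → jof L w = a + 1) :
    Cast L side (mkLabel a o d) 1 s w := by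
  intro ρ
  obtain ⟨h1, -⟩ := mkLabel_lt ha ho hd
  obtain ⟨h2, h3, h4⟩ := mkLabel_spec (a := a) ho hd
  have h7 := ρ.isLt
  have h8 := dig_lt L (jof L w) s
  unfold judge key hi lo
  rw [h2, h3, h4]
  simp only [if_neg (show ¬ 4 * (L + 2) ≤ mkLabel a o d by omega)]
  simp only [Fin.ext_iff, decide_eq_decide, Fin.val_one]
  cases half L w <;> simp only [Bool.false_eq_true, if_false, if_true] <;>
    split_ifs <;> omega

theorem cast_cap {L side s : ℕ} :
    Cast L side (4 * (L + 2)) 0 s (L + 2) ∧ Cast L side (4 * (L + 2)) 1 s (L + 3) ∧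
      Cast L side (4 * (L + 2)) 2 s (wid L - 1) := by
  obtain ⟨a1, a2⟩ := jof_left (show L + 2 < L + 4 by omega)
  obtain ⟨b1, b2⟩ := jof_left (show L + 3 < L + 4 by omega)
  obtain ⟨c1, c2⟩ := jof_right (show 0 < L + 4 by omega)
  simp only [Nat.sub_zero] at c1 c2
  have d1 := dig_lt L (L + 2) s
  have d2 := dig_lt L (L + 3) s
  have d3 := dig_lt L 0 s
  refine ⟨fun ρ => ?_, fun ρ => ?_, fun ρ => ?_⟩ <;>
  · have h7 := ρ.isLt
    unfold judge key hi lo
    simp only [a1, a2, b1, b2, c1, c2, le_refl, if_true, Fin.ext_iff, decide_eq_decide,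
      Fin.val_zero, Fin.val_one, Fin.val_two, Bool.false_eq_true, if_false]
    split_ifs <;> omega

theorem dig_zero {L s : ℕ} (hs : s < 2 ^ L) : dig L 0 s = 0 := by
  unfold dig cl
  rw [show L + 1 - (0 + 1) = L by omega, Nat.div_eq_of_lt hs]

theorem rel_low {L s t i : ℕ} (hs : s < 2 ^ L) (ht : t < 2 ^ L) (hi : i ≤ L + 2) :
    rel L s 0 t i = true := by
  have h : 2 ^ L ≤ 2 ^ (L + 1) := Nat.pow_le_pow_right (by norm_num) (Nat.le_succ L)
  rw [rel_iff (by omega) hi, show min 0 i = 0 by omega]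
  refine ⟨by omega, ?_⟩
  unfold cl
  rw [Nat.sub_zero, Nat.div_eq_of_lt (by omega), Nat.div_eq_of_lt (by omega)]

theorem rel_dummy {L s t j i : ℕ} (h : j = L + 3 ∨ i = L + 3) :
    rel L s j t i = decide (j ≠ i) := by
  unfold rel
  rw [if_pos h]

end Vale.Agent.P037.Disproof
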