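import Mathlib

namespace Vale.Agent.P037.Disproof

/-- The kinds of positions of the construction: periodic markers, label anchors, and points of
a leaf carrying an index and a half. -/
inductive Pt : Type
  | mark (r : Fin 4)
  | anchor (role : Fin 3) (label : ℕ)
  | main (s j : ℕ) (h : Bool)

/-- The block of the leaf `s` at index `j`. -/
def cl (L j s : ℕ) : ℕ := s / 2 ^ (L + 1 - j)

/-- The digit of the leaf `s` attached to index `j`. -/
def dig (L j s : ℕ) : ℕ := cl L (j + 1) s % 2

/-- The code of a main point as seen by anchors. -/
def key (L s j : ℕ) (h : Bool) : ℕ := 4 * j + 2 * dig L j s + (if h then 1 else 0)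

/-- The lower end of the set of codes accepted by an anchor. -/
def lo (L : ℕ) (role : Fin 3) (l : ℕ) : ℕ :=
  if 4 * (L + 2) ≤ l then
    (if role.val = 0 then 4 * (L + 2) else if role.val = 1 then 4 * (L + 3) else 0)
  else
    (if role.val = 0 then 4 * (l / 4) + 2 * (l % 2)
      else if role.val = 1 then 4 * (l / 4) + 4 else 4 * (l / 4) + 2 * (l % 2) + 1)

/-- The upper end of the set of codes accepted by an anchor. `side` is `1` for a row anchor
judging columns and `0` for a column anchor judging rows. -/
def hi (L side : ℕ) (role : Fin 3) (l : ℕ) : ℕ :=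
  if 4 * (L + 2) ≤ l then lo L role l + 3
  else if role.val = 1 then
    (if l / 2 % 2 = side then 4 * (l / 4) + 7 else 4 * (L + 2) + 3)
  else lo L role l

/-- Whether an anchor accepts a main point. -/
def judge (L side : ℕ) (role : Fin 3) (l s j : ℕ) (h : Bool) : Bool :=
  decide (lo L role l ≤ key L s j h ∧ key L s j h ≤ hi L side role l)

/-- The relation between two main points: equality of the coarser block, with two special
indices `L + 2` (pairwise zero) and `L + 3` (pairwise zero, one with everything else). -/
def rel (L s j t i : ℕ) : Bool :=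
  if j = L + 3 ∨ i = L + 3 then decide (j ≠ i)
  else decide (¬(j = L + 2 ∧ i = L + 2) ∧ cl L (min j i) s = cl L (min j i) t)

/-- The value of the matrix at a row point and a column point. -/
def val (L : ℕ) : Pt → Pt → Bool
  | .mark a, .mark b => decide (a ≠ b)
  | .mark _, .anchor _ _ => false
  | .mark _, .main _ _ _ => true
  | .anchor _ _, .mark _ => false
  | .main _ _ _, .mark _ => true
  | .anchor _ l, .anchor _ l' => decide (l = l')
  | .anchor ρ l, .main s j h => judge L 1 ρ l s j h
  | .main s j h, .anchor ρ l => judge L 0 ρ l s j h
  | .main s j _, .main t i _ => rel L s j t i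

/-- The forbidden pattern, on indices below 16. -/
def hv (i j : ℕ) : Bool :=
  if i < 10 then (if j < 10 then decide (i % 4 ≠ j % 4) else decide (13 ≤ j))
  else if j < 10 then decide (13 ≤ i)
  else if i < 13 then (if j < 13 then true else decide (i + 3 = j))
  else if j < 13 then decide (j + 3 = i)
  else decide (¬(i = 14 ∧ j = 14))

/-- `0` for markers, `1` for anchors, `2` for main points. -/
def kind : Pt → ℕ
  | .mark _ => 0
  | .anchor _ _ => 1
  | .main _ _ _ => 2

end Vale.Agent.P037.Disproof
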